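import Vale.Agent.P054.T3.H517.SeamVMain

/-!
# P054 / T3: choice of the windows of Lemma V

`exists_vsets`: `F` has dropped at the level `f`; `e ≥ f + (2 n + 2) * lenV`.  On a dense subset,
for each side: the leaf family has dropped at the level `e`, or Lemma V bounds the number of end
points of that side, at a level `k' ∈ [f, e]`.
-/

set_option autoImplicit false
set_option linter.unusedSectionVars false
set_option linter.unusedVariables false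

open MvPolynomial Module Finset

namespace Vale.Agent.P054.T3.H517

open Vale.Agent.P054I Vale.Agent.P054K
open Vale.Agent.P054.T2 Vale.Agent.P054.T2.SecC
open Vale.Agent.P054.T2.H580 (kap)
open Vale.Agent.P054.T2.H307 (Ed xF xL)
open Vale.Agent.P054.T2.H686 (Qf Crd dists Ez Gm E)
open Vale.Agent.P054.T3.H461 (FamU)
open Vale.Agent.P054.T3.H807 (pdeg pdeg_gain one_le_pdeg)
open Vale.Agent.P054.T2.H455 (Sep)

variable {n : ℕ}

/-- a nondecreasing bounded function is constant on one of `N + 1` consecutive intervals -/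
theorem exists_const_window (f : ℕ → ℕ) (a len N K : ℕ)
    (hmono : ∀ i j : ℕ, i ≤ j → j ≤ K → f i ≤ f j) (hN : ∀ i ≤ K, f i ≤ N)
    (h : a + (N + 1) * len ≤ K) :
    ∃ k', a ≤ k' ∧ k' + len ≤ a + (N + 1) * len ∧ ∀ l, k' ≤ l → l ≤ k' + len → f l = f k' := by
  have key : ∃ j ≤ N, f (a + (j + 1) * len) = f (a + j * len) := by
    by_contra hcon
    push Not at hcon
    have h1 : ∀ j ≤ N + 1, j ≤ f (a + j * len) := by
      intro j
      induction j with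
      | zero => intro _; exact Nat.zero_le _
      | succ j ih =>
        intro hj
        have h2 := ih (by omega)
        have h3 := hcon j (by omega)
        have h6 : (j + 1) * len ≤ (N + 1) * len := Nat.mul_le_mul_right _ (by omega)
        have h7 : j * len ≤ (j + 1) * len := Nat.mul_le_mul_right _ (by omega)
        have h4 : f (a + j * len) ≤ f (a + (j + 1) * len) := hmono _ _ (by omega) (by omega)
        omega
    have h5 := h1 (N + 1) le_rfl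
    have h6 := hN (a + (N + 1) * len) h
    omega
  obtain ⟨j, hj, hfj⟩ := key
  have h6 : (j + 1) * len ≤ (N + 1) * len := Nat.mul_le_mul_right _ (by omega)
  have h7 : (j + 1) * len = j * len + len := by ring
  refine ⟨a + j * len, Nat.le_add_right _ _, by omega, fun l hl hl' => ?_⟩
  have h8 := hmono _ _ hl (by omega)
  have h9 : f l ≤ f (a + (j + 1) * len) := hmono _ _ (by omega) (by omega)
  omega

/-- the bound of Lemma V at the fine level `k'` for a set `S` of vertices -/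
def VBd (n β L M : ℕ) (vF : ℕ → ℕ) (P : Finset (E n)) (t k' s : ℕ) : Prop :=
  s ≤ CVV n * (β ^ L) ^ aV n L M * (pdeg (β ^ L) k' vF * t ^ (n + 1 - vF k')) +
    CVV n * (β ^ L) ^ aV n L M * ((β ^ L) ^ kap (k' + 1) vF 0 * P.card)

theorem VBd.mono {β L M : ℕ} {vF : ℕ → ℕ} {P : Finset (E n)} {t k' s s' : ℕ}
    (h : VBd n β L M vF P t k' s) (hs : s' ≤ s) : VBd n β L M vF P t k' s' := hs.trans h

/-- one side, separation form -/
theorem exists_vset₁T (n L M : ℕ) (hL : 0 < L) :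
    ∃ β₀ : ℕ, ∀ β, β₀ ≤ β → ∀ (K₁ : ℕ) (E₁ : Finset (Ed n ℝ)) (vF v1 v2 : ℕ → ℕ),
      E₁.Nonempty → (∀ e ∈ E₁, e.1.1 0 ≠ e.2.1 0 ∧ Qf (e.1 - e.2) = 0) →
      FamU (xF (n := n) (K := ℝ)) (fun _ => ()) (β ^ L) β M K₁ E₁ vF →
      FamU (xL (n := n) (K := ℝ)) Prod.fst (β ^ L) β M K₁ E₁ v1 →
      FamU (xL (n := n) (K := ℝ)) Prod.snd (β ^ L) β M K₁ E₁ v2 →
      ∀ f e : ℕ, 1 ≤ vF f → f + (2 * n + 2) * lenV n L M ≤ e → e ≤ K₁ →
      ∃ E₂ ⊆ E₁, E₁.card ≤ β ^ MV n * E₂.card ∧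
        (1 ≤ v1 e ∨ ∃ k', f ≤ k' ∧ k' ≤ e ∧ vF k' ≤ n + 1 ∧ ∀ (P : Finset (E n)) (B : E n ≃ₗᵢ[ℝ] E n)
          (t k : ℕ) (Sg₁ : Finset (ZZ n)), 1 ≤ t → Sep (fun s : ZZ n => pt s) (4 * t) Sg₁ →
          (∀ e ∈ E₁, e.1 ∈ Sg₁) → Gm P B → E₁ ⊆ Ez P B k →
          VBd n β L M vF P t k' (E₂.image Prod.fst).card) := by
  classical
  obtain ⟨β₀, h⟩ := seamVT n L M hL
  refine ⟨max 1 β₀, fun β hβ => ?_⟩
  have hβ1 : 1 ≤ β := (le_max_left _ _).trans hβ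
  intro K₁ E₁ vF v1 v2 hne hadj hF h1 h2 f e hf hfe heK
  rcases Nat.eq_zero_or_pos (v1 e) with h0 | hpos
  · have hcC : Fintype.card (Crd n) = 2 * n + 1 := by simp [Crd]; ring
    obtain ⟨k', hk1, hk2, hk3⟩ := exists_const_window vF f (lenV n L M) (2 * n + 1) K₁
      (fun i j hij hj => hF.mono i j hij hj)
      (fun i hi => by have := hF.le_card hne hi; rwa [hcC] at this)
      (by
        have : (2 * n + 1 + 1) * lenV n L M = (2 * n + 2) * lenV n L M := by ring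
        omega)
    have hlen : f + (2 * n + 1 + 1) * lenV n L M ≤ e := by
      have : (2 * n + 1 + 1) * lenV n L M = (2 * n + 2) * lenV n L M := by ring
      omega
    obtain ⟨E₂, hE₂, hc, hvn, hb⟩ := h β ((le_max_right _ _).trans hβ) K₁ k' E₁ vF v1 v2 hne hadj hF h1
      h2 (by omega) (fun l hl hl' => ⟨hk3 l hl (by omega), by
        have := h1.mono l e (by omega) heK
        omega⟩) (hf.trans (hF.mono f k' hk1 (by omega)))
    exact ⟨E₂, hE₂, hc, Or.inr ⟨k', hk1, by omega, hvn, hb⟩⟩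
  · refine ⟨E₁, Finset.Subset.refl _, ?_, Or.inl hpos⟩
    exact Nat.le_mul_of_pos_left _ (Nat.pow_pos hβ1)

/-- the other side, separation form -/
theorem exists_vset₂T (n L M : ℕ) (hL : 0 < L) :
    ∃ β₀ : ℕ, ∀ β, β₀ ≤ β → ∀ (K₁ : ℕ) (E₁ : Finset (Ed n ℝ)) (vF v1 v2 : ℕ → ℕ),
      E₁.Nonempty → (∀ e ∈ E₁, e.1.1 0 ≠ e.2.1 0 ∧ Qf (e.1 - e.2) = 0) →
      FamU (xF (n := n) (K := ℝ)) (fun _ => ()) (β ^ L) β M K₁ E₁ vF →
      FamU (xL (n := n) (K := ℝ)) Prod.fst (β ^ L) β M K₁ E₁ v1 →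
      FamU (xL (n := n) (K := ℝ)) Prod.snd (β ^ L) β M K₁ E₁ v2 →
      ∀ f e : ℕ, 1 ≤ vF f → f + (2 * n + 2) * lenV n L M ≤ e → e ≤ K₁ →
      ∃ E₂ ⊆ E₁, E₁.card ≤ β ^ MV n * E₂.card ∧
        (1 ≤ v2 e ∨ ∃ k', f ≤ k' ∧ k' ≤ e ∧ vF k' ≤ n + 1 ∧ ∀ (P : Finset (E n)) (B : E n ≃ₗᵢ[ℝ] E n)
          (t k : ℕ) (Sg₂ : Finset (ZZ n)), 1 ≤ t → Sep (fun s : ZZ n => pt s) (4 * t) Sg₂ →
          (∀ e ∈ E₁, e.2 ∈ Sg₂) → Gm P B → E₁ ⊆ Ez P B k →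
          VBd n β L M vF P t k' (E₂.image Prod.snd).card) := by
  classical
  obtain ⟨β₀, h⟩ := exists_vset₁T n L M hL
  refine ⟨β₀, fun β hβ => ?_⟩
  intro K₁ E₁ vF v1 v2 hne hadj hF h1 h2 f e hf hfe heK
  obtain ⟨E₂, hE₂, hc, hb⟩ := h β hβ K₁ (swp E₁) vF v2 v1 (swp_nonempty hne) (adj_swp hadj)
    (famU_F_swp hadj hF) (famU_L2_swp h2) (famU_L1_swp h1) f e hf hfe heK
  refine ⟨swp E₂, swp_subset' hE₂, by rwa [card_swp] at hc ⊢, ?_⟩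
  rcases hb with hb | ⟨k', hk1, hk2, hvn, hb⟩
  · exact Or.inl hb
  · refine Or.inr ⟨k', hk1, hk2, hvn, fun P B t k Sg₂ ht1 hsep hSg₂ hB hEz => ?_⟩
    rw [image_snd_swp]
    exact hb P B t k Sg₂ ht1 hsep (fun e he => hSg₂ e.swap (mem_swp.1 he)) hB (fun e he => by
      have h4 := H686.Ez_swap (hEz (mem_swp.1 he))
      rwa [Prod.swap_swap] at h4)

/-- **both sides**, separation form: a dense subset on which, for each side, the leaf family has dropped at the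
level `e` or the number of end points is bounded by Lemma V at a level `k' ∈ [f, e]`. -/
theorem exists_vsetsT (n L M : ℕ) (hL : 0 < L) :
    ∃ β₀ : ℕ, ∀ β, β₀ ≤ β → ∀ (K₁ : ℕ) (E₁ : Finset (Ed n ℝ)) (vF v1 v2 : ℕ → ℕ),
      E₁.Nonempty → (∀ e ∈ E₁, e.1.1 0 ≠ e.2.1 0 ∧ Qf (e.1 - e.2) = 0) →
      FamU (xF (n := n) (K := ℝ)) (fun _ => ()) (β ^ L) β M K₁ E₁ vF →
      FamU (xL (n := n) (K := ℝ)) Prod.fst (β ^ L) β M K₁ E₁ v1 →
      FamU (xL (n := n) (K := ℝ)) Prod.snd (β ^ L) β M K₁ E₁ v2 →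
      ∀ f e : ℕ, 1 ≤ vF f → f + (2 * n + 2) * lenV n L M ≤ e →
        f + (2 * n + 2) * lenV n L (M + MV n) ≤ e → e ≤ K₁ →
      ∃ E₂ ⊆ E₁, E₁.card ≤ β ^ (2 * MV n) * E₂.card ∧
        FamU (xF (n := n) (K := ℝ)) (fun _ => ()) (β ^ L) β (M + 2 * MV n) K₁ E₂ vF ∧
        FamU (xL (n := n) (K := ℝ)) Prod.fst (β ^ L) β (M + 2 * MV n) K₁ E₂ v1 ∧
        FamU (xL (n := n) (K := ℝ)) Prod.snd (β ^ L) β (M + 2 * MV n) K₁ E₂ v2 ∧
        ∀ (P : Finset (E n)) (B : E n ≃ₗᵢ[ℝ] E n) (t k : ℕ) (Sg₁ Sg₂ : Finset (ZZ n)), 1 ≤ t →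
          Sep (fun s : ZZ n => pt s) (4 * t) Sg₁ → Sep (fun s : ZZ n => pt s) (4 * t) Sg₂ →
          (∀ e ∈ E₁, e.1 ∈ Sg₁) → (∀ e ∈ E₁, e.2 ∈ Sg₂) →
          Gm P B → E₁ ⊆ Ez P B k →
          (1 ≤ v1 e ∨ ∃ k', f ≤ k' ∧ k' ≤ e ∧ vF k' ≤ n + 1 ∧
            VBd n β L M vF P t k' (E₂.image Prod.fst).card) ∧
          (1 ≤ v2 e ∨ ∃ k', f ≤ k' ∧ k' ≤ e ∧ vF k' ≤ n + 1 ∧
            VBd n β L (M + MV n) vF P t k' (E₂.image Prod.snd).card) := by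
  classical
  obtain ⟨β₁, H₁⟩ := exists_vset₁T n L M hL
  obtain ⟨β₂, H₂⟩ := exists_vset₂T n L (M + MV n) hL
  refine ⟨max 1 (max β₁ β₂), fun β hβ => ?_⟩
  have hβ1 : 1 ≤ β := (le_max_left _ _).trans hβ
  intro K₁ E₁ vF v1 v2 hne hadj hF h1 h2 f e hf hfe hfe' heK
  obtain ⟨E', hE', hc', hb'⟩ := H₁ β ((le_max_left _ _).trans ((le_max_right _ _).trans hβ))
    K₁ E₁ vF v1 v2 hne hadj hF h1 h2 f e hf hfe heK
  have hne' : E'.Nonempty := by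
    rw [← Finset.card_pos]
    by_contra hcon
    have h0 : E'.card = 0 := by omega
    rw [h0, mul_zero] at hc'
    have := hne.card_pos
    omega
  obtain ⟨E₂, hE₂, hc₂, hb₂⟩ := H₂ β ((le_max_right _ _).trans ((le_max_right _ _).trans hβ))
    K₁ E' vF v1 v2 hne' (fun a ha => hadj a (hE' ha)) (H533.FamU.subset hF hE' hc')
    (H533.FamU.subset h1 hE' hc') (H533.FamU.subset h2 hE' hc') f e hf hfe' heK
  have hcard : E₁.card ≤ β ^ (2 * MV n) * E₂.card := by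
    calc E₁.card ≤ β ^ MV n * E'.card := hc'
      _ ≤ β ^ MV n * (β ^ MV n * E₂.card) := Nat.mul_le_mul_left _ hc₂
      _ = _ := by rw [two_mul, pow_add]; ring
  have hsub : E₂ ⊆ E₁ := hE₂.trans hE'
  refine ⟨E₂, hsub, hcard, H533.FamU.subset hF hsub hcard, H533.FamU.subset h1 hsub hcard,
    H533.FamU.subset h2 hsub hcard, ?_⟩
  intro P B t k Sg₁ Sg₂ ht1 hs₁ hs₂ hm₁ hm₂ hB hEz
  constructor
  · rcases hb' with hb' | ⟨k', hk1, hk2, hvn, hb'⟩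
    · exact Or.inl hb'
    · exact Or.inr ⟨k', hk1, hk2, hvn, (hb' P B t k Sg₁ ht1 hs₁ hm₁ hB hEz).mono
        (Finset.card_le_card (Finset.image_subset_image hE₂))⟩
  · rcases hb₂ with hb₂ | ⟨k', hk1, hk2, hvn, hb₂⟩
    · exact Or.inl hb₂
    · exact Or.inr ⟨k', hk1, hk2, hvn, hb₂ P B t k Sg₂ ht1 hs₂ (fun a ha => hm₂ a (hE' ha)) hB
        (hE'.trans hEz)⟩

/-- **both sides**: a dense subset on which, for each side, the leaf family has dropped at the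
level `e` or the number of end points is bounded by Lemma V at a level `k' ∈ [f, e]`. -/
theorem exists_vsets (hV : VertHyp n) (L M : ℕ) (hL : 0 < L) :
    ∃ β₀ : ℕ, ∀ β, β₀ ≤ β → ∀ (K₁ : ℕ) (E₁ : Finset (Ed n ℝ)) (vF v1 v2 : ℕ → ℕ),
      E₁.Nonempty → (∀ e ∈ E₁, e.1.1 0 ≠ e.2.1 0 ∧ Qf (e.1 - e.2) = 0) →
      FamU (xF (n := n) (K := ℝ)) (fun _ => ()) (β ^ L) β M K₁ E₁ vF →
      FamU (xL (n := n) (K := ℝ)) Prod.fst (β ^ L) β M K₁ E₁ v1 →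
      FamU (xL (n := n) (K := ℝ)) Prod.snd (β ^ L) β M K₁ E₁ v2 →
      ∀ f e : ℕ, 1 ≤ vF f → f + (2 * n + 2) * lenV n L M ≤ e →
        f + (2 * n + 2) * lenV n L (M + MV n) ≤ e → e ≤ K₁ →
      ∃ E₂ ⊆ E₁, E₁.card ≤ β ^ (2 * MV n) * E₂.card ∧
        FamU (xF (n := n) (K := ℝ)) (fun _ => ()) (β ^ L) β (M + 2 * MV n) K₁ E₂ vF ∧
        FamU (xL (n := n) (K := ℝ)) Prod.fst (β ^ L) β (M + 2 * MV n) K₁ E₂ v1 ∧
        FamU (xL (n := n) (K := ℝ)) Prod.snd (β ^ L) β (M + 2 * MV n) K₁ E₂ v2 ∧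
        ∀ (P : Finset (E n)) (B : E n ≃ₗᵢ[ℝ] E n) (t k : ℕ), 1 ≤ t → (dists P).card ≤ t →
          Gm P B → E₁ ⊆ Ez P B k →
          (1 ≤ v1 e ∨ ∃ k', f ≤ k' ∧ k' ≤ e ∧ vF k' ≤ n + 1 ∧
            VBd n β L M vF P t k' (E₂.image Prod.fst).card) ∧
          (1 ≤ v2 e ∨ ∃ k', f ≤ k' ∧ k' ≤ e ∧ vF k' ≤ n + 1 ∧
            VBd n β L (M + MV n) vF P t k' (E₂.image Prod.snd).card) := by
  obtain ⟨β₀, h⟩ := exists_vsetsT n L M hL
  refine ⟨β₀, fun β hβ => ?_⟩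
  intro K₁ E₁ vF v1 v2 hne hadj hF h1 h2 f e hf hfe hfe' heK
  obtain ⟨E₂, a1, a2, a3, a4, a5, key⟩ :=
    h β hβ K₁ E₁ vF v1 v2 hne hadj hF h1 h2 f e hf hfe hfe' heK
  exact ⟨E₂, a1, a2, a3, a4, a5, fun P B t k ht1 ht hB hEz => key P B t k (H84.Sg P B)
    (H84.Sg P B) ht1 (sep_of_dists ht) (sep_of_dists ht) (fun e he => fst_mem_Sg (hEz he))
    (fun e he => snd_mem_Sg (hEz he)) hB hEz⟩

/-- **the gain of Lemma V** in terms of `τ` (`b ^ ell ≤ τ`, `τ ≤ Θ t`): the first drop of `F` is at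
a level `f` with `f + g ≤ ell`. -/
theorem VBd.gain {β L M : ℕ} {vF : ℕ → ℕ} {P : Finset (E n)} {t k' s ell x g f τ Θ : ℕ}
    (h : VBd n β L M vF P t k' s) (hb : 1 ≤ β ^ L)
    (hmono : ∀ k l : ℕ, k ≤ l → l < k' + 1 → vF k ≤ vF l) (hell : (β ^ L) ^ ell ≤ τ)
    (hk' : k' ≤ ell + x) (hf : f ≤ k') (hvf : 1 ≤ vF f) (hg : f + g ≤ ell)
    (hvn : vF k' ≤ n + 1) (hΘ : 1 ≤ Θ) (hτ : τ ≤ Θ * t) :
    s * (β ^ L) ^ g ≤ CVV n * (β ^ L) ^ aV n L M *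
      ((β ^ L) ^ (x * (n + 1)) * Θ ^ n * (τ * t ^ n) + τ * P.card) := by
  have hv1 : 1 ≤ vF k' := hvf.trans (hmono f k' hf (Nat.lt_succ_self _))
  have hgain := pdeg_gain hb hmono hell hk' hf hvf hg
  have h1 : pdeg (β ^ L) k' vF * t ^ (n + 1 - vF k') * (β ^ L) ^ g ≤
      (β ^ L) ^ (x * (n + 1)) * Θ ^ n * (τ * t ^ n) := by
    have e1 : τ ^ vF k' * t ^ (n + 1 - vF k') ≤ Θ ^ n * (τ * t ^ n) := by
      obtain ⟨c, hc⟩ : ∃ c, vF k' = c + 1 := ⟨vF k' - 1, by omega⟩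
      rw [hc]
      have e2 : n + 1 - (c + 1) = n - c := by omega
      rw [e2]
      have hcn : c ≤ n := by omega
      have e3 : t ^ n = t ^ c * t ^ (n - c) := by rw [← pow_add]; congr 1; omega
      calc τ ^ (c + 1) * t ^ (n - c) = τ * (τ ^ c * t ^ (n - c)) := by rw [pow_succ]; ring
        _ ≤ τ * ((Θ * t) ^ c * t ^ (n - c)) :=
            Nat.mul_le_mul_left _ (Nat.mul_le_mul_right _ (Nat.pow_le_pow_left hτ _))
        _ = Θ ^ c * (τ * t ^ n) := by rw [e3, mul_pow]; ring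
        _ ≤ Θ ^ n * (τ * t ^ n) := Nat.mul_le_mul_right _ (Nat.pow_le_pow_right hΘ hcn)
    calc pdeg (β ^ L) k' vF * t ^ (n + 1 - vF k') * (β ^ L) ^ g
        = (pdeg (β ^ L) k' vF * (β ^ L) ^ g) * t ^ (n + 1 - vF k') := by ring
      _ ≤ ((β ^ L) ^ (x * vF k') * τ ^ vF k') * t ^ (n + 1 - vF k') :=
          Nat.mul_le_mul_right _ hgain
      _ = (β ^ L) ^ (x * vF k') * (τ ^ vF k' * t ^ (n + 1 - vF k')) := by ring
      _ ≤ (β ^ L) ^ (x * (n + 1)) * (Θ ^ n * (τ * t ^ n)) :=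
          Nat.mul_le_mul (Nat.pow_le_pow_right hb (Nat.mul_le_mul_left _ hvn)) e1
      _ = _ := by ring
  have h2 : (β ^ L) ^ kap (k' + 1) vF 0 * P.card * (β ^ L) ^ g ≤ τ * P.card := by
    have e1 : kap (k' + 1) vF 0 ≤ f :=
      H580.kap_le_of_lt (k' + 1) vF hmono 0 f hvf
    calc (β ^ L) ^ kap (k' + 1) vF 0 * P.card * (β ^ L) ^ g
        = (β ^ L) ^ (kap (k' + 1) vF 0 + g) * P.card := by rw [pow_add]; ring
      _ ≤ (β ^ L) ^ ell * P.card :=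
          Nat.mul_le_mul_right _ (Nat.pow_le_pow_right hb (by omega))
      _ ≤ _ := Nat.mul_le_mul_right _ hell
  calc s * (β ^ L) ^ g
      ≤ (CVV n * (β ^ L) ^ aV n L M * (pdeg (β ^ L) k' vF * t ^ (n + 1 - vF k')) +
        CVV n * (β ^ L) ^ aV n L M * ((β ^ L) ^ kap (k' + 1) vF 0 * P.card)) * (β ^ L) ^ g :=
        Nat.mul_le_mul_right _ h
    _ = CVV n * (β ^ L) ^ aV n L M * (pdeg (β ^ L) k' vF * t ^ (n + 1 - vF k') * (β ^ L) ^ g +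
        (β ^ L) ^ kap (k' + 1) vF 0 * P.card * (β ^ L) ^ g) := by ring
    _ ≤ _ := Nat.mul_le_mul_left _ (Nat.add_le_add h1 h2)

end Vale.Agent.P054.T3.H517
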