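import Mathlib

set_option autoImplicit false
set_option linter.unusedSectionVars false

/-!
# P054 / T3, Lemma V, vertical case: the `D`-argument (linear algebra over a differential field)

`K` a field, `O` an orthogonal `m × m` matrix with `δ O = O A` for enough derivations `δ` (one for
each elementary skew matrix `A`), `T` a subspace of `K^m × K^m` stable under the `δ` (coordinatewise)
which contains a nonzero vector `(x, O x)` of the graph of `O`.  Then
`(m - 1) + dim (T ∩ graph O) ≤ dim T`, and if `dim T ≤ m` then `dim T = m`,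
`dim (T ∩ graph O) = 1` and `T` is isotropic for `b·b' - a·a'`.
-/

namespace Vale.Agent.P054.T3.H517.DArg

open Module Matrix

variable {K : Type*} [Field K] {m : ℕ}

/-- `τ (a, b) = b - O a` -/
def tau (O : Matrix (Fin m) (Fin m) K) : (Fin m ⊕ Fin m → K) →ₗ[K] (Fin m → K) :=
  LinearMap.funLeft K K Sum.inr - O.mulVecLin ∘ₗ LinearMap.funLeft K K Sum.inl

theorem tau_apply (O : Matrix (Fin m) (Fin m) K) (v : Fin m ⊕ Fin m → K) :
    tau O v = (fun i => v (Sum.inr i)) - O *ᵥ (fun i => v (Sum.inl i)) := rfl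

/-- the bilinear form `b·b' - a·a'` -/
def bf (v w : Fin m ⊕ Fin m → K) : K :=
  (fun i => v (Sum.inr i)) ⬝ᵥ (fun i => w (Sum.inr i)) -
    (fun i => v (Sum.inl i)) ⬝ᵥ (fun i => w (Sum.inl i))

/-- the elementary skew matrix -/
def sk (a b : Fin m) : Matrix (Fin m) (Fin m) K := Matrix.single a b 1 - Matrix.single b a 1

theorem sk_mulVec (a b : Fin m) (x : Fin m → K) :
    sk a b *ᵥ x = Pi.single a (x b) - Pi.single b (x a) := by
  unfold sk
  rw [Matrix.sub_mulVec]
  congr 1
  · funext i
    simp only [mulVec, dotProduct, Matrix.single_apply, ite_mul, one_mul, zero_mul]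
    by_cases h : a = i
    · subst h
      simp
    · rw [Pi.single_apply, if_neg (fun h' => h h'.symm)]
      exact Finset.sum_eq_zero fun j _ => by simp [h]
  · funext i
    simp only [mulVec, dotProduct, Matrix.single_apply, ite_mul, one_mul, zero_mul]
    by_cases h : b = i
    · subst h
      simp
    · rw [Pi.single_apply, if_neg (fun h' => h h'.symm)]
      exact Finset.sum_eq_zero fun j _ => by simp [h]

/-- the data -/
structure Dat (K : Type*) [Field K] (m : ℕ) (O : Matrix (Fin m) (Fin m) K)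
    (T : Submodule K (Fin m ⊕ Fin m → K)) : Prop where
  orth : Oᵀ * O = 1
  der : ∀ a b : Fin m, ∃ δ : Derivation ℤ K K, (O.map δ = O * sk a b) ∧
    ∀ v ∈ T, (fun y => δ (v y)) ∈ T

variable {O : Matrix (Fin m) (Fin m) K} {T : Submodule K (Fin m ⊕ Fin m → K)}

theorem tau_der (δ : Derivation ℤ K K) {a b : Fin m} (hδ : O.map δ = O * sk a b)
    {w : Fin m ⊕ Fin m → K} (hw : tau O w = 0) :
    tau O (fun y => δ (w y)) = O *ᵥ (sk a b *ᵥ (fun i => w (Sum.inl i))) := by
  rw [Matrix.mulVec_mulVec, ← hδ, tau_apply]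
  funext i
  have h1 : w (Sum.inr i) = ∑ j, O i j * w (Sum.inl j) := by
    have h2 := congrFun hw i
    rw [tau_apply, Pi.sub_apply, Pi.zero_apply, sub_eq_zero] at h2
    exact h2
  show δ (w (Sum.inr i)) - ∑ j, O i j * δ (w (Sum.inl j)) = ∑ j, δ (O i j) * w (Sum.inl j)
  rw [h1, map_sum, ← Finset.sum_sub_distrib]
  refine Finset.sum_congr rfl fun j _ => ?_
  rw [Derivation.leibniz, smul_eq_mul, smul_eq_mul]
  ring

/-- `τ T` contains the hyperplane orthogonal to `O x` -/
theorem hyp_le (H : Dat K m O T) {w : Fin m ⊕ Fin m → K} (hwT : w ∈ T) (hw : tau O w = 0)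
    (hw0 : w ≠ 0) {z : Fin m → K} (hz : z ⬝ᵥ (fun i => w (Sum.inr i)) = 0) :
    z ∈ T.map (tau O) := by
  classical
  set x : Fin m → K := fun i => w (Sum.inl i) with hx
  have hwr : (fun i => w (Sum.inr i)) = O *ᵥ x := by
    have := hw
    rw [tau_apply, sub_eq_zero] at this
    exact this
  have hx0 : x ≠ 0 := by
    intro h
    apply hw0
    funext y
    rcases y with i | i
    · exact congrFun h i
    · have h2 := congrFun hwr i
      rw [h, mulVec_zero] at h2
      exact h2
  obtain ⟨c, hc⟩ : ∃ c, x c ≠ 0 := by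
    by_contra h
    push Not at h
    exact hx0 (funext h)
  set y : Fin m → K := Oᵀ *ᵥ z with hy
  have hOO : O * Oᵀ = 1 := mul_eq_one_comm.1 H.orth
  have hzy : z = O *ᵥ y := by
    rw [hy, mulVec_mulVec, hOO, one_mulVec]
  have hyx : y ⬝ᵥ x = 0 := by
    rw [hy, mulVec_transpose, ← dotProduct_mulVec, ← hwr]
    exact hz
  have hmem : ∀ a, O *ᵥ (sk a c *ᵥ x) ∈ T.map (tau O) := by
    intro a
    obtain ⟨δ, h1, h2⟩ := H.der a c
    exact ⟨_, h2 w hwT, tau_der δ h1 hw⟩
  have hsum : y = ∑ a, (y a * (x c)⁻¹) • (sk a c *ᵥ x) := by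
    funext i
    rw [Finset.sum_apply]
    have h1 : ∀ a, ((y a * (x c)⁻¹) • (sk a c *ᵥ x)) i =
        (if a = i then y a else 0) - (if i = c then y a * (x c)⁻¹ * x a else 0) := by
      intro a
      rw [Pi.smul_apply, sk_mulVec, Pi.sub_apply, Pi.single_apply, Pi.single_apply, smul_eq_mul,
        mul_sub]
      congr 1
      · by_cases h : a = i
        · subst h
          rw [if_pos rfl, if_pos rfl, mul_assoc, inv_mul_cancel₀ hc, mul_one]
        · rw [if_neg h, if_neg (fun h' => h h'.symm), mul_zero]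
      · by_cases h : i = c
        · rw [if_pos h, if_pos h]
        · rw [if_neg h, if_neg h, mul_zero]
    rw [Finset.sum_congr rfl fun a _ => h1 a, Finset.sum_sub_distrib, Finset.sum_ite_eq']
    simp only [Finset.mem_univ, if_true]
    have h2 : ∑ a, (if i = c then y a * (x c)⁻¹ * x a else 0) = 0 := by
      by_cases h : i = c
      · simp only [h, if_true]
        have h3 : ∑ a, y a * (x c)⁻¹ * x a = (x c)⁻¹ * (y ⬝ᵥ x) := by
          rw [dotProduct, Finset.mul_sum]
          exact Finset.sum_congr rfl fun a _ => by ring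
        rw [h3, hyx, mul_zero]
      · simp [h]
    rw [h2, sub_zero]
  rw [hzy, hsum, mulVec_sum]
  refine Submodule.sum_mem _ fun a _ => ?_
  rw [mulVec_smul]
  exact Submodule.smul_mem _ _ (hmem a)

/-- the hyperplane orthogonal to `u` -/
def perp (u : Fin m → K) : Submodule K (Fin m → K) :=
  LinearMap.ker (dotProductBilin K K u)

theorem mem_perp {u z : Fin m → K} : z ∈ perp u ↔ z ⬝ᵥ u = 0 := by
  unfold perp
  rw [LinearMap.mem_ker]
  show u ⬝ᵥ z = 0 ↔ _
  rw [dotProduct_comm]

theorem finrank_perp {u : Fin m → K} (hu : u ≠ 0) : finrank K (perp u) + 1 = m := by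
  classical
  have h1 := LinearMap.finrank_range_add_finrank_ker (dotProductBilin K K u)
  have h2 : LinearMap.range (dotProductBilin K K u) = ⊤ := by
    rw [LinearMap.range_eq_top]
    obtain ⟨c, hc⟩ : ∃ c, u c ≠ 0 := by
      by_contra h
      push Not at h
      exact hu (funext h)
    intro a
    refine ⟨Pi.single c ((u c)⁻¹ * a), ?_⟩
    show u ⬝ᵥ _ = a
    rw [dotProduct_single, ← mul_assoc, mul_inv_cancel₀ hc, one_mul]
  rw [h2, finrank_top, finrank_self, finrank_fin_fun] at h1
  rw [add_comm]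
  exact h1

theorem inr_ne_zero {w : Fin m ⊕ Fin m → K} (hO : Oᵀ * O = 1) (hw : tau O w = 0) (hw0 : w ≠ 0) :
    (fun i => w (Sum.inr i)) ≠ 0 := by
  intro h
  have hwr : (fun i => w (Sum.inr i)) = O *ᵥ (fun i => w (Sum.inl i)) := by
    have := hw
    rw [tau_apply, sub_eq_zero] at this
    exact this
  have h2 : (fun i => w (Sum.inl i)) = 0 := by
    have h3 : Oᵀ *ᵥ (O *ᵥ (fun i => w (Sum.inl i))) = 0 := by
      rw [← hwr, h, mulVec_zero]
    rw [mulVec_mulVec, hO, one_mulVec] at h3
    exact h3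
  apply hw0
  funext y
  rcases y with i | i
  · exact congrFun h2 i
  · exact congrFun h i

/-- the dimension count -/
theorem finrank_add_le (H : Dat K m O T) {w : Fin m ⊕ Fin m → K} (hwT : w ∈ T) (hw : tau O w = 0)
    (hw0 : w ≠ 0) :
    m + finrank K (T ⊓ LinearMap.ker (tau O) : Submodule K _) ≤ finrank K T + 1 := by
  have h1 := finrank_perp (inr_ne_zero H.orth hw hw0)
  have h2 : perp (fun i => w (Sum.inr i)) ≤ T.map (tau O) := fun z hz =>
    hyp_le H hwT hw hw0 (mem_perp.1 hz)
  have h3 := Submodule.finrank_mono h2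
  have h4 := LinearMap.finrank_range_add_finrank_ker ((tau O).domRestrict T)
  have h5 : LinearMap.range ((tau O).domRestrict T) = T.map (tau O) := by
    rw [LinearMap.range_domRestrict]
  have h6 : finrank K (LinearMap.ker ((tau O).domRestrict T)) =
      finrank K (T ⊓ LinearMap.ker (tau O) : Submodule K _) := by
    have h7 : (LinearMap.ker ((tau O).domRestrict T)).map T.subtype =
        T ⊓ LinearMap.ker (tau O) := by
      ext v
      simp only [Submodule.mem_map, LinearMap.mem_ker, Submodule.mem_inf]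
      constructor
      · rintro ⟨y, hy, rfl⟩
        exact ⟨y.2, hy⟩
      · rintro ⟨h8, h9⟩
        exact ⟨⟨v, h8⟩, h9, rfl⟩
    rw [← h7, Submodule.finrank_map_subtype_eq]
  rw [h5, h6] at h4
  omega

/-- the intersection with the graph is a line if `dim T ≤ m` -/
theorem finrank_inf_ge {w : Fin m ⊕ Fin m → K} (hwT : w ∈ T) (hw : tau O w = 0)
    (hw0 : w ≠ 0) : 1 ≤ finrank K (T ⊓ LinearMap.ker (tau O) : Submodule K _) := by
  have h1 : (T ⊓ LinearMap.ker (tau O) : Submodule K _) ≠ ⊥ := by
    intro h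
    have : w ∈ (T ⊓ LinearMap.ker (tau O) : Submodule K _) := ⟨hwT, hw⟩
    rw [h] at this
    exact hw0 ((Submodule.mem_bot K).1 this)
  exact Nat.one_le_iff_ne_zero.2 fun h => h1 (Submodule.finrank_eq_zero.1 h)

theorem finrank_ge (H : Dat K m O T) {w : Fin m ⊕ Fin m → K} (hwT : w ∈ T) (hw : tau O w = 0)
    (hw0 : w ≠ 0) : m ≤ finrank K T := by
  have h1 := finrank_add_le H hwT hw hw0
  have h2 := finrank_inf_ge hwT hw hw0
  omega

/-- if `dim T ≤ m`, then `τ T` is the hyperplane -/
theorem map_tau_eq (H : Dat K m O T) {w : Fin m ⊕ Fin m → K} (hwT : w ∈ T) (hw : tau O w = 0)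
    (hw0 : w ≠ 0) (hT : finrank K T ≤ m) :
    T.map (tau O) = perp (fun i => w (Sum.inr i)) := by
  have h1 := finrank_perp (inr_ne_zero H.orth hw hw0)
  have h2 : perp (fun i => w (Sum.inr i)) ≤ T.map (tau O) := fun z hz =>
    hyp_le H hwT hw hw0 (mem_perp.1 hz)
  symm
  refine Submodule.eq_of_le_of_finrank_le h2 ?_
  have h4 := LinearMap.finrank_range_add_finrank_ker ((tau O).domRestrict T)
  have h5 : LinearMap.range ((tau O).domRestrict T) = T.map (tau O) := by
    rw [LinearMap.range_domRestrict]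
  have h6 : 1 ≤ finrank K (LinearMap.ker ((tau O).domRestrict T)) := by
    refine Nat.one_le_iff_ne_zero.2 fun h => ?_
    have h7 := Submodule.finrank_eq_zero.1 h
    have h8 : (⟨w, hwT⟩ : T) ∈ LinearMap.ker ((tau O).domRestrict T) := hw
    rw [h7, Submodule.mem_bot] at h8
    exact hw0 (congrArg Subtype.val h8)
  rw [h5] at h4
  omega

/-- the form on the graph: `w` is orthogonal to `T` -/
theorem bf_eq (hO : Oᵀ * O = 1) {v w : Fin m ⊕ Fin m → K} (hw : tau O w = 0) :
    bf v w = tau O v ⬝ᵥ (fun i => w (Sum.inr i)) := by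
  have hwr : (fun i => w (Sum.inr i)) = O *ᵥ (fun i => w (Sum.inl i)) := by
    have := hw
    rw [tau_apply, sub_eq_zero] at this
    exact this
  unfold bf
  rw [tau_apply, sub_dotProduct]
  congr 1
  rw [hwr, dotProduct_mulVec, ← mulVec_transpose, mulVec_mulVec, hO, one_mulVec]

theorem bf_comm (v w : Fin m ⊕ Fin m → K) : bf v w = bf w v := by
  unfold bf
  rw [dotProduct_comm, dotProduct_comm (fun i => v (Sum.inl i))]

theorem der_bf (δ : Derivation ℤ K K) (v w : Fin m ⊕ Fin m → K) :
    δ (bf v w) = bf (fun y => δ (v y)) w + bf v (fun y => δ (w y)) := by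
  unfold bf dotProduct
  rw [map_sub, map_sum, map_sum]
  simp only [Derivation.leibniz, smul_eq_mul, Finset.sum_add_distrib]
  have h : ∀ f g : Fin m → K, ∑ i, f i * g i = ∑ i, g i * f i := fun f g =>
    Finset.sum_congr rfl fun i _ => mul_comm _ _
  rw [h (fun i => δ (v (Sum.inr i))), h (fun i => δ (v (Sum.inl i)))]
  ring

/-- the radical of `T` -/
def rad (T : Submodule K (Fin m ⊕ Fin m → K)) : Submodule K (Fin m ⊕ Fin m → K) where
  carrier := {v | v ∈ T ∧ ∀ v' ∈ T, bf v v' = 0}
  add_mem' := by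
    rintro a b ⟨ha, ha'⟩ ⟨hb, hb'⟩
    refine ⟨T.add_mem ha hb, fun v' hv' => ?_⟩
    have h : bf (a + b) v' = bf a v' + bf b v' := by
      unfold bf dotProduct
      simp only [Pi.add_apply, add_mul, Finset.sum_add_distrib]
      ring
    rw [h, ha' v' hv', hb' v' hv', add_zero]
  zero_mem' := by
    refine ⟨T.zero_mem, fun v' _ => ?_⟩
    unfold bf dotProduct
    simp
  smul_mem' := by
    rintro c a ⟨ha, ha'⟩
    refine ⟨T.smul_mem c ha, fun v' hv' => ?_⟩
    have h : bf (c • a) v' = c * bf a v' := by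
      unfold bf dotProduct
      simp only [Pi.smul_apply, smul_eq_mul, mul_assoc, ← Finset.mul_sum]
      ring
    rw [h, ha' v' hv', mul_zero]

theorem mem_rad {v : Fin m ⊕ Fin m → K} : v ∈ rad T ↔ v ∈ T ∧ ∀ v' ∈ T, bf v v' = 0 := Iff.rfl

theorem rad_le : rad T ≤ T := fun _ h => h.1

/-- the radical is stable -/
theorem dat_rad (H : Dat K m O T) : Dat K m O (rad T) where
  orth := H.orth
  der := by
    intro a b
    obtain ⟨δ, h1, h2⟩ := H.der a b
    refine ⟨δ, h1, fun v hv => ⟨h2 v hv.1, fun v' hv' => ?_⟩⟩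
    have h3 := der_bf δ v v'
    rw [hv.2 v' hv', map_zero, hv.2 _ (h2 v' hv'), add_zero] at h3
    exact h3.symm

/-- **the `D`-argument**: if `dim T ≤ m` and `T` contains a nonzero vector of the graph, then
`dim T = m`, `T` meets the graph in a line and `T` is isotropic -/
theorem isotropic (H : Dat K m O T) {w : Fin m ⊕ Fin m → K} (hwT : w ∈ T) (hw : tau O w = 0)
    (hw0 : w ≠ 0) (hT : finrank K T ≤ m) :
    finrank K T = m ∧ finrank K (T ⊓ LinearMap.ker (tau O) : Submodule K _) = 1 ∧
      ∀ v ∈ T, ∀ v' ∈ T, bf v v' = 0 := by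
  have h1 := finrank_add_le H hwT hw hw0
  have h2 := finrank_inf_ge hwT hw hw0
  have h3 : w ∈ rad T := by
    refine ⟨hwT, fun v hv => ?_⟩
    rw [bf_comm, bf_eq H.orth hw, ← mem_perp, ← map_tau_eq H hwT hw hw0 hT]
    exact ⟨v, hv, rfl⟩
  have h4 := finrank_ge (dat_rad H) h3 hw hw0
  have h5 : rad T = T := Submodule.eq_of_le_of_finrank_le rad_le (by omega)
  refine ⟨by omega, by omega, fun v hv v' hv' => ?_⟩
  rw [← h5] at hv
  exact hv.2 v' hv'

/-- a vector of the graph is determined by its second half -/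
theorem inl_eq {w : Fin m ⊕ Fin m → K} (hO : Oᵀ * O = 1) (hw : tau O w = 0) :
    (fun i => w (Sum.inl i)) = Oᵀ *ᵥ (fun i => w (Sum.inr i)) := by
  have hwr : (fun i => w (Sum.inr i)) = O *ᵥ (fun i => w (Sum.inl i)) := by
    have := hw
    rw [tau_apply, sub_eq_zero] at this
    exact this
  rw [hwr, mulVec_mulVec, hO, one_mulVec]

theorem eq_smul_of_perp_le {u u' : Fin m → K} (hu : u ≠ 0) (h : perp u ≤ perp u') :
    ∃ c : K, u' = c • u := by
  classical
  obtain ⟨a, ha⟩ : ∃ c, u c ≠ 0 := by
    by_contra h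
    push Not at h
    exact hu (funext h)
  refine ⟨u' a / u a, funext fun b => ?_⟩
  have h1 : (Pi.single b (u a) - Pi.single a (u b) : Fin m → K) ∈ perp u := by
    rw [mem_perp, sub_dotProduct, single_dotProduct, single_dotProduct]
    ring
  have h2 := mem_perp.1 (h h1)
  rw [sub_dotProduct, single_dotProduct, single_dotProduct, sub_eq_zero] at h2
  rw [Pi.smul_apply, smul_eq_mul]
  field_simp
  rw [mul_comm, h2]
  ring

/-- **the `D`-argument**, full form: if `dim T + 1 ≤ m + dim (T ∩ graph O)` and `T` contains a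
nonzero vector of the graph, then `dim T = m`, `T` meets the graph in a line and `T` is isotropic -/
theorem isotropic' (H : Dat K m O T) {w : Fin m ⊕ Fin m → K} (hwT : w ∈ T) (hw : tau O w = 0)
    (hw0 : w ≠ 0)
    (hT : finrank K T + 1 ≤ m + finrank K (T ⊓ LinearMap.ker (tau O) : Submodule K _)) :
    finrank K T = m ∧ finrank K (T ⊓ LinearMap.ker (tau O) : Submodule K _) = 1 ∧
      ∀ v ∈ T, ∀ v' ∈ T, bf v v' = 0 := by
  classical
  have key : ∀ w' ∈ T, tau O w' = 0 → w' ≠ 0 →
      T.map (tau O) = perp (fun i => w' (Sum.inr i)) := by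
    intro w' hwT' hw' hw0'
    have h1 := finrank_perp (inr_ne_zero H.orth hw' hw0')
    have h2 : perp (fun i => w' (Sum.inr i)) ≤ T.map (tau O) := fun z hz =>
      hyp_le H hwT' hw' hw0' (mem_perp.1 hz)
    symm
    refine Submodule.eq_of_le_of_finrank_le h2 ?_
    have h4 := LinearMap.finrank_range_add_finrank_ker ((tau O).domRestrict T)
    have h5 : LinearMap.range ((tau O).domRestrict T) = T.map (tau O) := by
      rw [LinearMap.range_domRestrict]
    have h6 : finrank K (LinearMap.ker ((tau O).domRestrict T)) =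
        finrank K (T ⊓ LinearMap.ker (tau O) : Submodule K _) := by
      have h7 : (LinearMap.ker ((tau O).domRestrict T)).map T.subtype =
          T ⊓ LinearMap.ker (tau O) := by
        ext v
        simp only [Submodule.mem_map, LinearMap.mem_ker, Submodule.mem_inf]
        constructor
        · rintro ⟨y, hy, rfl⟩
          exact ⟨y.2, hy⟩
        · rintro ⟨h8, h9⟩
          exact ⟨⟨v, h8⟩, h9, rfl⟩
      rw [← h7, Submodule.finrank_map_subtype_eq]
    rw [h5, h6] at h4
    omega
  have hone : finrank K (T ⊓ LinearMap.ker (tau O) : Submodule K _) ≤ 1 := by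
    have h1 : (T ⊓ LinearMap.ker (tau O) : Submodule K _) ≤ K ∙ w := by
      rintro w' ⟨h2, h3⟩
      rcases eq_or_ne w' 0 with h0 | h0
      · rw [h0]; exact Submodule.zero_mem _
      have h4 : perp (fun i => w (Sum.inr i)) ≤ perp (fun i => w' (Sum.inr i)) := by
        rw [← key w hwT hw hw0, ← key w' h2 h3 h0]
      obtain ⟨c, hc⟩ := eq_smul_of_perp_le (inr_ne_zero H.orth hw hw0) h4
      rw [Submodule.mem_span_singleton]
      refine ⟨c, ?_⟩
      funext y
      rcases y with i | i
      · have h5 := congrFun (inl_eq H.orth h3) i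
        have h6 := congrFun (inl_eq H.orth hw) i
        rw [hc, mulVec_smul] at h5
        show c * w (Sum.inl i) = w' (Sum.inl i)
        rw [h5, Pi.smul_apply, ← h6, smul_eq_mul]
      · exact (congrFun hc i).symm
    exact (Submodule.finrank_mono h1).trans (finrank_span_singleton hw0).le
  exact isotropic H hwT hw hw0 (by omega)

end Vale.Agent.P054.T3.H517.DArg
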