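import Vale.Agent.P054.T2.H930.HatPack

/-!
# P054 / T3: one hat over an abstract base scale `W`

Port of `H580/UniHat` and `H930/HatPack`: the levels `b ^ k` below the base scale `b ^ k₀` are
replaced by the base scale `W` (any natural `≥ 1`), a base system `g` of degrees `d j ≤ W` on the
fibres, and one number `R` with

* `(up)`: `(∏ j < cF, d j) * W ^ (N - cF) ≤ b * R`,
* `(lo)`: every dense `B` has `e ∈ B` with `R ≤ b * rk (fibre of e in B; W)`.

Only the levels `W * b ^ i` (`i ≤ K₀`) are used.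
-/

set_option autoImplicit false
set_option linter.unusedSectionVars false

open MvPolynomial Module Finset

namespace Vale.Agent.P054.T3.H517

open Vale.Agent.P054.T2
open Vale.Agent.P054.T2.H580 (Vw wh hilbF rkF Par kap IsFilt)
open Vale.Agent.P054.T2.H930 (germ)
open Vale.Agent.P054.T2.H307 (van pts mem_van mem_pts van_mono IsUnif IsFam gfr core core_subset
  fib mem_fib fib_mono fib_subset self_mem_fib gr gsp)

section up

variable {γ ρ K ι S : Type*} [Field K] [Fintype γ] [Fintype ρ] [DecidableEq γ] [DecidableEq ρ]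

/-- **HAT UPPER BOUND** over the base scale `W`: base system of degrees `d j`. -/
theorem hat_upW (b : ℕ) (hb : 1 ≤ b) (W : ℕ) (hW : 1 ≤ W) (i₀ i₁ : ℕ) (hi : i₀ ≤ i₁)
    (v' : ℕ → ℕ)
    (hv' : ∀ k l : ℕ, k ≤ l → l ≤ i₀ → v' k ≤ v' l)
    (hconst : ∀ i, i₀ ≤ i → i < i₁ → v' i = v' i₀)
    {c m : ℕ} (hm : v' i₀ = c + m) (hge : ∀ i ≤ i₀, c ≤ v' i)
    (hcγ : c ≤ Fintype.card γ) (hmN : c + m ≤ Fintype.card γ + Fintype.card ρ)
    (d : ℕ → ℕ) (hd1 : ∀ j < c, 1 ≤ d j)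
    (x : ι → γ ⊕ ρ → K) (A : Finset ι)
    (f : Fin (c + m) → MvPolynomial (γ ⊕ ρ) K)
    (hd : ∀ j : Fin c, f (Fin.castAdd m j) ∈ Vw K (wh γ ρ W) (d j))
    (hd' : ∀ j : Fin m, f (Fin.natAdd c j) ∈
      Vw K (wh γ ρ W) (W * b ^ kap (i₀ + 1) v' (c + j)))
    (hev : ∀ e ∈ A, ∀ j, eval (x e) (f j) = 0)
    (hind : ∀ e ∈ A, LinearIndependent K (fun j => H930.grad (x e) (f j))) :
    hilbF (Vw K (wh γ ρ W)) (⨅ e ∈ A, germ (x e) f) (2 * (W * b ^ i₁)) ≤
      (2 * (Fintype.card γ + Fintype.card ρ + 2)) ^ (Fintype.card γ + Fintype.card ρ) *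
        (((∏ j ∈ range c, d j) * W ^ (Fintype.card γ - c)) *
          b ^ (∑ i ∈ range i₁, (Fintype.card γ + Fintype.card ρ - v' i))) := by
  classical
  set N := Fintype.card γ + Fintype.card ρ with hN
  have h := H580.hat_up_aux (K := K) W hW x A f d (fun j => b ^ kap (i₀ + 1) v' (c + j))
    hd1 (fun j _ => Nat.one_le_pow _ _ hb) hd hd' hev hind hcγ hmN (2 * b ^ i₁) (by
      have := Nat.one_le_pow i₁ b hb
      omega)
  have harg : W * (2 * b ^ i₁) = 2 * (W * b ^ i₁) := by ring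
  rw [harg] at h
  refine h.trans ?_
  rw [← hN]
  have s2 : (∑ j ∈ range m, kap (i₀ + 1) v' (c + j)) + i₁ * (N - (c + m)) =
      ∑ i ∈ range i₁, (N - v' i) := by
    have h3 := H580.sum_kap_window N (i₀ + 1) i₁ v' (by omega)
      (fun k l hkl hl => hv' k l hkl (by omega)) (by simpa [hm] using hmN)
      (fun k h1 h2 => by simpa using hconst k (by simpa using h1) h2)
    simp only [Nat.add_sub_cancel, hm] at h3
    rw [Finset.sum_range_add] at h3
    have h4 : ∑ j ∈ range c, kap (i₀ + 1) v' j = 0 := by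
      refine Finset.sum_eq_zero fun j hj => ?_
      refine H580.kap_eq_zero _ _ _ fun k hk => ?_
      have h5 := hge k (by omega)
      have h6 := Finset.mem_range.1 hj
      omega
    rw [h4, zero_add] at h3
    exact h3
  have hpow : (2 * b ^ i₁) ^ (N - (c + m)) ≤ 2 ^ N * b ^ (i₁ * (N - (c + m))) := by
    rw [mul_pow, ← pow_mul]
    exact Nat.mul_le_mul_right _ (Nat.pow_le_pow_right (by norm_num) (Nat.sub_le _ _))
  rw [Finset.prod_pow_eq_pow_sum (range m)]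
  calc (c + m + 2) ^ N * ((∏ j ∈ range c, d j) * W ^ (Fintype.card γ - c) *
        (b ^ (∑ j ∈ range m, kap (i₀ + 1) v' (c + j)) * (2 * b ^ i₁) ^ (N - (c + m))))
      ≤ (N + 2) ^ N * ((∏ j ∈ range c, d j) * W ^ (Fintype.card γ - c) *
        (b ^ (∑ j ∈ range m, kap (i₀ + 1) v' (c + j)) *
          (2 ^ N * b ^ (i₁ * (N - (c + m)))))) :=
        Nat.mul_le_mul (Nat.pow_le_pow_left (by omega) _)
          (Nat.mul_le_mul_left _ (Nat.mul_le_mul_left _ hpow))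
    _ = (2 * (N + 2)) ^ N * ((∏ j ∈ range c, d j) * W ^ (Fintype.card γ - c) *
          b ^ ((∑ j ∈ range m, kap (i₀ + 1) v' (c + j)) + i₁ * (N - (c + m)))) := by
        rw [mul_pow, pow_add]
        ring
    _ = _ := by rw [s2]

/-- **[GOOD] along the window of the hats**, at the level `W * b ^ i`. -/
theorem hat_goodW [Infinite K] [DecidableEq S] (p : ι → S) (x : ι → γ ⊕ ρ → K) (E' : Finset ι)
    (b : ℕ) (hb : 1 ≤ b) (W : ℕ) (hW : 1 ≤ W) (i₀ i₁ : ℕ) (hi : i₀ ≤ i₁) (v' : ℕ → ℕ)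
    (hv' : ∀ k l : ℕ, k ≤ l → l ≤ i₀ → v' k ≤ v' l)
    (hconst : ∀ i, i₀ ≤ i → i < i₁ → v' i = v' i₀)
    {c m : ℕ} (hm : v' i₀ = c + m) (hge : ∀ i ≤ i₀, c ≤ v' i)
    (hcγ : c ≤ Fintype.card γ) (hmN : c + m ≤ Fintype.card γ + Fintype.card ρ)
    (d : ℕ → ℕ) (hd1 : ∀ j < c, 1 ≤ d j) {R : ℕ} (hR : 1 ≤ R)
    (hup : (∏ j ∈ range c, d j) * W ^ (Fintype.card γ - c) ≤ b * R)
    (f : S → Fin (c + m) → MvPolynomial (γ ⊕ ρ) K)
    (hd : ∀ s, ∀ j : Fin c, f s (Fin.castAdd m j) ∈ van x (E'.filter (fun a => p a = s))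
      (Vw K (wh γ ρ W) (d j)))
    (hd' : ∀ s, ∀ j : Fin m, f s (Fin.natAdd c j) ∈ van x (E'.filter (fun a => p a = s))
      (Vw K (wh γ ρ W) (W * b ^ kap (i₀ + 1) v' (c + j))))
    (hind : ∀ e ∈ E', LinearIndependent K (fun j => H930.grad (x e) (f (p e) j)))
    {Λ β' : ℕ}
    (hL : ∀ B ⊆ E', E'.card < β' * B.card →
      ∃ e ∈ B, R * b ^ (∑ i ∈ range i₁, (Fintype.card γ + Fintype.card ρ - v' i)) ≤
        Λ * rkF (Vw K (wh γ ρ W)) (pts x (B.filter (fun a => p a = p e))) (W * b ^ i₁))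
    (i : ℕ) (hii : i ≤ i₁)
    (hJ : (2 * (Fintype.card γ + Fintype.card ρ + 2)) ^ (Fintype.card γ + Fintype.card ρ) *
      b * Λ < b ^ (i₁ - i))
    (Y : Finset ι) (hYE : Y ⊆ E')
    (hY : ∀ e ∈ Y, ∃ F ∈ Vw K (wh γ ρ W) (W * b ^ i),
      (∀ a ∈ E', p a = p e → eval (x a) F = 0) ∧ F ∉ germ (x e) (f (p e))) :
    β' * Y.card ≤ E'.card := by
  classical
  have hw : ∀ i, wh γ ρ W i ≠ 0 := H580.wh_ne_zero hW
  have hTT : W * b ^ i₁ + b ^ (i₁ - i) * (W * b ^ i) = 2 * (W * b ^ i₁) := by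
    have h1 : b ^ (i₁ - i) * (W * b ^ i) = W * b ^ i₁ := by
      rw [mul_left_comm, ← pow_add, Nat.sub_add_cancel hii]
    rw [h1]; ring
  have hmem : ∀ s, ∀ j : Fin (c + m), ∀ a ∈ E'.filter (fun a => p a = s),
      eval (x a) (f s j) = 0 := by
    intro s j a ha
    refine Fin.addCases (fun j => ?_) (fun j => ?_) j
    · exact (mem_van.1 (hd s j)).2 a ha
    · exact (mem_van.1 (hd' s j)).2 a ha
  refine (H580.isFilt_Vw (k := K) (wh γ ρ W) hw).good_num p x E' f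
    (fun e he j => hmem (p e) j e (Finset.mem_filter.2 ⟨he, rfl⟩)) hind
    (T := W * b ^ i) (T' := W * b ^ i₁) (J := b ^ (i₁ - i))
    (C₁ := (2 * (Fintype.card γ + Fintype.card ρ + 2)) ^ (Fintype.card γ + Fintype.card ρ) * b)
    (E := R * b ^ (∑ i ∈ range i₁, (Fintype.card γ + Fintype.card ρ - v' i)))
    (Nat.mul_pos hR (Nat.one_le_pow _ _ hb)) ?_
    (fun B hB hc => by
      obtain ⟨e, he, h⟩ := hL B hB hc
      rw [H580.pts_eq] at h
      exact ⟨e, he, h⟩) hJ Y hYE hY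
  intro s Z hZ
  rw [hTT]
  refine (hat_upW b hb W hW i₀ i₁ hi v' hv' hconst hm hge hcγ hmN d hd1 x Z (f s)
    (fun j => (mem_van.1 (hd s j)).1) (fun j => (mem_van.1 (hd' s j)).1) ?_ ?_).trans ?_
  · intro e he j
    exact hmem s j e (hZ he)
  · intro e he
    obtain ⟨h1, h2⟩ := Finset.mem_filter.1 (hZ he)
    rw [← h2]
    exact hind e h1
  · calc _ ≤ (2 * (Fintype.card γ + Fintype.card ρ + 2)) ^ (Fintype.card γ + Fintype.card ρ) *
          ((b * R) * b ^ (∑ i ∈ range i₁, (Fintype.card γ + Fintype.card ρ - v' i))) :=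
          Nat.mul_le_mul_left _ (Nat.mul_le_mul_right _ hup)
      _ = _ := by ring

end up

section unif

variable {ι κ K S : Type*} [Field K] [CharZero K] [Infinite K]
variable {c : κ → Finset ι → ι → ℕ} {J : Finset κ} {β : ℕ} {E' : Finset ι} {v : κ → ℕ}

section base

variable {σ : Type*} [Fintype σ] [DecidableEq σ]

theorem der_rtd (n : ℕ) (i : σ) (F : MvPolynomial σ K) (hF : F ∈ restrictTotalDegree σ K n) :
    pderiv i F ∈ restrictTotalDegree σ K n := by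
  rw [← H580.Vw_one_eq] at hF ⊢
  exact H580.Vw_mono _ (by omega) (H580.pderiv_mem_Vw _ hF i)

theorem X_rtd (i : σ) {W : ℕ} (hW : 1 ≤ W) :
    (X i : MvPolynomial σ K) ∈ restrictTotalDegree σ K W := by
  rw [mem_restrictTotalDegree, totalDegree_X]
  exact hW

/-- **lower bound for the base family** at the level `W * b ^ i` -/
theorem base_lowerW {N k C₁ L K₀ q : ℕ} (hP : Par N k β C₁ L K₀ q J.card)
    (h : IsUnif c J β E' v)
    (hmono : ∀ j ∈ J, ∀ A B : Finset ι, A ⊆ B → B ⊆ E' → ∀ e ∈ A, c j B e ≤ c j A e)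
    (hN : Fintype.card σ ≤ N) {x : ι → σ → K} {p : ι → S} {W : ℕ} (hW : 1 ≤ W)
    {idxF : ℕ → κ} {KF : ℕ} (hKF : KF ≤ K₀)
    (hFF : IsFam c J idxF KF x p (restrictTotalDegree σ K) W (β ^ L)) {cF : ℕ}
    (hvF : ∀ i < KF, v (idxF i) = cF) {R q' : ℕ}
    (hlo : ∀ B ⊆ E', E'.card < q' * B.card →
      ∃ e ∈ B, R ≤ β ^ L * rkF (restrictTotalDegree σ K) (pts x (fib p B (p e))) W)
    {B : Finset ι} (hB : B ⊆ E') {r : ℕ} (hr : 2 * r ≤ q) (hr' : 2 * r ≤ q')
    (hd : E'.card < r * B.card) :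
    ∃ e ∈ B, R * (β ^ L) ^ (KF * (Fintype.card σ - cF)) ≤
      (((C₁ ^ (Fintype.card σ) * (Fintype.card σ).factorial) ^ L) ^ KF *
        (β ^ L) ^ (Fintype.card σ * Fintype.card σ + 1)) *
        rkF (restrictTotalDegree σ K) (pts x (fib p B (p e))) (W * (β ^ L) ^ KF) := by
  classical
  have hVT := H580.isFilt_total (k := K) (σ := σ)
  have hd1 := H580.core_dense hP h hmono hB hr hd
  obtain ⟨e, he, hle⟩ := hlo (core c J v B (K₀ * (L * k))) ((core_subset _ _).trans hB)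
    (lt_of_lt_of_le hd1 (Nat.mul_le_mul_right _ hr'))
  refine ⟨e, core_subset _ _ he, ?_⟩
  have h1 := H580.fam_lower hP hVT der_rtd (fun i => X_rtd i hW) hN hKF hFF he
  have hsum : ∑ j ∈ range KF, (Fintype.card σ - v (idxF j)) = KF * (Fintype.card σ - cF) := by
    rw [Finset.sum_congr rfl (fun j hj => by rw [hvF j (Finset.mem_range.1 hj)]),
      Finset.sum_const, Finset.card_range, smul_eq_mul]
  rw [hsum] at h1
  calc R * (β ^ L) ^ (KF * (Fintype.card σ - cF))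
      ≤ (β ^ L * rkF (restrictTotalDegree σ K)
          (pts x (fib p (core c J v B (K₀ * (L * k))) (p e))) W) *
          (β ^ L) ^ (KF * (Fintype.card σ - cF)) := Nat.mul_le_mul_right _ hle
    _ = β ^ L * ((β ^ L) ^ (KF * (Fintype.card σ - cF)) * rkF (restrictTotalDegree σ K)
          (pts x (fib p (core c J v B (K₀ * (L * k))) (p e))) W) := by ring
    _ ≤ β ^ L * ((((C₁ ^ (Fintype.card σ) * (Fintype.card σ).factorial) ^ L) ^ KF *
        (β ^ L) ^ (Fintype.card σ * Fintype.card σ)) *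
        rkF (restrictTotalDegree σ K) (pts x (fib p B (p e))) (W * (β ^ L) ^ KF)) :=
        Nat.mul_le_mul_left _ h1
    _ = _ := by rw [pow_succ]; ring

end base

variable {γ ρ : Type*} [Fintype γ] [Fintype ρ] [DecidableEq γ] [DecidableEq ρ]

/-- **(SYS) for the hats** over the base scale `W` -/
theorem hat_sysW (h : IsUnif c J β E' v) (hE : E'.Nonempty) (hβ : 1 < β)
    {b : ℕ} (hb : 1 < b) {W : ℕ} (hW : 1 ≤ W) {x : ι → γ ⊕ ρ → K} {p : ι → S}
    {idxH : ℕ → κ} {KH : ℕ}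
    (hFH : IsFam c J idxH KH x p (Vw K (wh γ ρ W)) W b) {cF : ℕ} {d : ℕ → ℕ}
    (hdW : ∀ j < cF, d j ≤ W)
    (f : S → Fin cF → MvPolynomial γ K)
    (hf : ∀ s, ∀ j : Fin cF, f s j ∈ van (fun e => x e ∘ Sum.inl) (fib p E' s)
      (restrictTotalDegree γ K (d j)))
    (hind : ∀ e ∈ E', LinearIndependent K (fun j => H930.grad (x e ∘ Sum.inl) (f (p e) j))) :
    (∀ i ≤ KH, cF ≤ v (idxH i)) ∧
    ∀ i₀ ≤ KH, ∀ m, cF + m = v (idxH i₀) →
      ∃ F : S → Fin (cF + m) → MvPolynomial (γ ⊕ ρ) K,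
        (∀ s j, F s (Fin.castAdd m j) = rename Sum.inl (f s j)) ∧
        (∀ s, ∀ j : Fin cF, F s (Fin.castAdd m j) ∈ van x (fib p E' s)
          (Vw K (wh γ ρ W) (d j))) ∧
        (∀ s, ∀ j : Fin m, F s (Fin.natAdd cF j) ∈ van x (fib p E' s)
          (Vw K (wh γ ρ W) (W * b ^ kap (i₀ + 1) (fun j => v (idxH j)) (cF + j)))) ∧
        ∀ e ∈ E', LinearIndependent K (fun j => H930.grad (x e) (F (p e) j)) := by
  classical
  have hVH := H580.isFilt_Vw (k := K) (wh γ ρ W) (H580.wh_ne_zero hW)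
  -- the renamed equations
  have hren : ∀ s, ∀ j : Fin cF, (rename Sum.inl (f s j) : MvPolynomial (γ ⊕ ρ) K) ∈
      van x (fib p E' s) (Vw K (wh γ ρ W) (d j)) := by
    intro s j
    refine mem_van.2 ⟨H580.rename_mem_Vw_of_total _ Sum.inl (fun _ => rfl)
      (mem_van.1 (hf s j)).1, ?_⟩
    intro e he
    rw [eval_rename]
    exact (mem_van.1 (hf s j)).2 e he
  have hindr : ∀ e ∈ E', LinearIndependent K
      (fun j => H930.grad (x e) (rename Sum.inl (f (p e) j) : MvPolynomial (γ ⊕ ρ) K)) :=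
    fun e he => H580.linInd_rename (x e) (f (p e)) (hind e he)
  have hge : ∀ i ≤ KH, cF ≤ v (idxH i) := by
    intro i hi
    refine H580.le_value h hE hβ hFH hi (fun e he => ?_)
    have hmem : ∀ j : Fin cF, H930.grad (x e) (rename Sum.inl (f (p e) j)) ∈
        gsp x (fib p E' (p e)) (Vw K (wh γ ρ W) (W * b ^ i)) (x e) := by
      intro j
      refine H307.grad_mem_gsp (van_mono (Finset.Subset.refl _) (hVH.mono ?_) (hren (p e) j)) (x e)
      exact (hdW j j.2).trans (Nat.le_mul_of_pos_right _ (Nat.pow_pos (by omega)))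
    have h1 : Submodule.span K (Set.range
        (fun j => H930.grad (x e) (rename Sum.inl (f (p e) j) : MvPolynomial (γ ⊕ ρ) K))) ≤
        gsp x (fib p E' (p e)) (Vw K (wh γ ρ W) (W * b ^ i)) (x e) := by
      rw [Submodule.span_le]
      rintro _ ⟨j, rfl⟩
      exact hmem j
    have h2 := Submodule.finrank_mono h1
    rw [finrank_span_eq_card (hindr e he), Fintype.card_fin] at h2
    exact h2
  refine ⟨hge, ?_⟩
  intro i₀ hi₀ m hm
  have hone : ∀ s, ∃ F : Fin (cF + m) → MvPolynomial (γ ⊕ ρ) K,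
      (∀ j, F (Fin.castAdd m j) = rename Sum.inl (f s j)) ∧
      (∀ j : Fin m, F (Fin.natAdd cF j) ∈ van x (fib p E' s)
          (Vw K (wh γ ρ W) (W * b ^ (kap (i₀ + 1) (fun j => v (idxH j)) (cF + j))))) ∧
      ∀ e ∈ fib p E' s, LinearIndependent K (fun j => H307.grad (x e) (F j)) := by
    intro s
    refine H580.exists_sys_ext (K := K) (fib p E' s) (fun e => H307.grad (x e))
      (fun k => van x (fib p E' s) (Vw K (wh γ ρ W) (W * b ^ k))) (i₀ + 1)
      (Nat.succ_pos _) (fun j => v (idxH j))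
      (fun k l hkl hl => h.fam_mono hE hβ hVH.mono hb.le hFH hkl (by omega)) ?_
      (fun j => rename Sum.inl (f s j)) ?_ m (by simpa using hm.le)
    · intro k hk e he
      obtain ⟨he1, he2⟩ := mem_fib.1 he
      have h1 := h.le (idxH k) (hFH k (by omega)).1 E' (Finset.Subset.refl _) e he1
      rw [(hFH k (by omega)).2] at h1
      unfold gfr at h1
      rw [he2] at h1
      exact h1
    · intro e he
      obtain ⟨he1, he2⟩ := mem_fib.1 he
      have h1 := hindr e he1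
      rw [he2] at h1
      exact h1
  choose F hF1 hF2 hF3 using hone
  refine ⟨F, hF1, ?_, hF2, ?_⟩
  · intro s j
    rw [hF1]
    exact hren s j
  · intro e he
    exact hF3 (p e) e (self_mem_fib he)

/-- **lower bound for the hats on dense sets**, over the base scale `W` -/
theorem hat_lowerW {N k C₁ L K₀ q : ℕ} (hP : Par N k β C₁ L K₀ q J.card)
    (h : IsUnif c J β E' v)
    (hmono : ∀ j ∈ J, ∀ A B : Finset ι, A ⊆ B → B ⊆ E' → ∀ e ∈ A, c j B e ≤ c j A e)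
    (hN : Fintype.card γ + Fintype.card ρ ≤ N) {W : ℕ} (hW : 1 ≤ W) (i₁ : ℕ)
    {x : ι → γ ⊕ ρ → K} {p : ι → S} {idxH : ℕ → κ}
    (hFH : IsFam c J idxH i₁ x p (Vw K (wh γ ρ W)) W (β ^ L))
    (hi₁ : i₁ ≤ K₀) {R q' : ℕ}
    (hlo : ∀ B ⊆ E', E'.card < q' * B.card →
      ∃ e ∈ B, R ≤ β ^ L * rkF (restrictTotalDegree γ K)
        (pts (fun e => x e ∘ Sum.inl) (fib p B (p e))) W)
    {B : Finset ι} (hB : B ⊆ E') {r : ℕ} (hr : 2 * r ≤ q) (hr' : 2 * r ≤ q')
    (hd : E'.card < r * B.card) :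
    ∃ e ∈ B, R * (β ^ L) ^ (∑ i ∈ range i₁, (Fintype.card γ + Fintype.card ρ - v (idxH i))) ≤
      ((((C₁ ^ (Fintype.card γ + Fintype.card ρ) *
          (Fintype.card γ + Fintype.card ρ).factorial) ^ L) ^ i₁ *
        (β ^ L) ^ ((Fintype.card γ + Fintype.card ρ) * (Fintype.card γ + Fintype.card ρ) + 1))) *
      rkF (Vw K (wh γ ρ W)) (pts x (fib p B (p e))) (W * (β ^ L) ^ i₁) := by
  classical
  have hVH := H580.isFilt_Vw (k := K) (wh γ ρ W) (H580.wh_ne_zero hW)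
  have hderH : ∀ n (i : γ ⊕ ρ) (F : MvPolynomial (γ ⊕ ρ) K),
      F ∈ Vw K (wh γ ρ W) n → pderiv i F ∈ Vw K (wh γ ρ W) n :=
    fun n i F hF => H580.Vw_mono _ (Nat.sub_le _ _) (H580.pderiv_mem_Vw _ hF i)
  have hXH : ∀ i : γ ⊕ ρ, (X i : MvPolynomial (γ ⊕ ρ) K) ∈ Vw K (wh γ ρ W) W :=
    fun i => H580.X_mem_Vw_le _ (H580.wh_le hW) i
  have hd1 := H580.core_dense hP h hmono hB hr hd
  obtain ⟨e, he, hle⟩ := hlo (core c J v B (K₀ * (L * k))) ((core_subset _ _).trans hB)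
    (lt_of_lt_of_le hd1 (Nat.mul_le_mul_right _ hr'))
  refine ⟨e, core_subset _ _ he, ?_⟩
  have hcardH : Fintype.card (γ ⊕ ρ) = Fintype.card γ + Fintype.card ρ := Fintype.card_sum
  have h2 := H580.fam_lower hP hVH hderH hXH (by rw [hcardH]; exact hN) hi₁ hFH he
  rw [hcardH] at h2
  have hproj : rkF (restrictTotalDegree γ K) (pts (fun e => x e ∘ Sum.inl)
      (fib p (core c J v B (K₀ * (L * k))) (p e))) W ≤
      rkF (Vw K (wh γ ρ W)) (pts x (fib p (core c J v B (K₀ * (L * k))) (p e))) W := by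
    rw [H580.pts_eq, H580.pts_eq]
    refine H580.rkF_proj_le _ _ Sum.inl (H580.finite_Vw _ (H580.wh_ne_zero hW) _)
      (fun F hF => ?_) x _
    exact H580.rename_mem_Vw_of_total (wh γ ρ W) Sum.inl (fun _ => rfl) hF
  calc R * (β ^ L) ^ (∑ i ∈ range i₁, (Fintype.card γ + Fintype.card ρ - v (idxH i)))
      ≤ (β ^ L * rkF (Vw K (wh γ ρ W)) (pts x (fib p (core c J v B (K₀ * (L * k))) (p e))) W) *
          (β ^ L) ^ (∑ i ∈ range i₁, (Fintype.card γ + Fintype.card ρ - v (idxH i))) :=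
        Nat.mul_le_mul_right _ (hle.trans (Nat.mul_le_mul_left _ hproj))
    _ = β ^ L * ((β ^ L) ^ (∑ i ∈ range i₁, (Fintype.card γ + Fintype.card ρ - v (idxH i))) *
          rkF (Vw K (wh γ ρ W)) (pts x (fib p (core c J v B (K₀ * (L * k))) (p e))) W) := by
        ring
    _ ≤ β ^ L * _ := Nat.mul_le_mul_left _ h2
    _ = _ := by rw [pow_succ]; ring

/-- **[GOOD] for the hats** on a dense subset `A` (`|E'| ≤ r |A|`), at the level `W * b ^ i`. -/
theorem hat_GOODW {N k C₁ L K₀ q : ℕ} (hP : Par N k β C₁ L K₀ q J.card)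
    (h : IsUnif c J β E' v) (hE : E'.Nonempty)
    (hmono : ∀ j ∈ J, ∀ A B : Finset ι, A ⊆ B → B ⊆ E' → ∀ e ∈ A, c j B e ≤ c j A e)
    (hN : Fintype.card γ + Fintype.card ρ ≤ N) {W : ℕ} (hW : 1 ≤ W) (i₀ i₁ : ℕ) (hi : i₀ ≤ i₁)
    {x : ι → γ ⊕ ρ → K} {p : ι → S} {idxH : ℕ → κ}
    (hFH : IsFam c J idxH i₁ x p (Vw K (wh γ ρ W)) W (β ^ L))
    (hi₁ : i₁ ≤ K₀)
    (hconst : ∀ i, i₀ ≤ i → i < i₁ → v (idxH i) = v (idxH i₀))
    {cF m : ℕ} (hcγ : cF ≤ Fintype.card γ) (hm : v (idxH i₀) = cF + m)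
    (hge : ∀ i ≤ i₀, cF ≤ v (idxH i)) (d : ℕ → ℕ) (hd1 : ∀ j < cF, 1 ≤ d j)
    {R q' : ℕ} (hup : (∏ j ∈ range cF, d j) * W ^ (Fintype.card γ - cF) ≤ β ^ L * R)
    (hlo : ∀ B ⊆ E', E'.card < q' * B.card →
      ∃ e ∈ B, R ≤ β ^ L * rkF (restrictTotalDegree γ K)
        (pts (fun e => x e ∘ Sum.inl) (fib p B (p e))) W)
    (F : S → Fin (cF + m) → MvPolynomial (γ ⊕ ρ) K)
    (hF1 : ∀ s, ∀ j : Fin cF, F s (Fin.castAdd m j) ∈ van x (fib p E' s)
      (Vw K (wh γ ρ W) (d j)))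
    (hF2 : ∀ s, ∀ j : Fin m, F s (Fin.natAdd cF j) ∈ van x (fib p E' s)
      (Vw K (wh γ ρ W) (W * (β ^ L) ^ kap (i₀ + 1) (fun j => v (idxH j)) (cF + j))))
    (hF3 : ∀ e ∈ E', LinearIndependent K (fun j => H930.grad (x e) (F (p e) j)))
    {A : Finset ι} (hA : A ⊆ E') {r β' : ℕ} (hr : E'.card ≤ r * A.card)
    (hrq : 2 * (r * β') ≤ q) (hrq' : 2 * (r * β') ≤ q')
    (i : ℕ) (hii : i + N * N + 4 ≤ i₁)
    (Y : Finset ι) (hYA : Y ⊆ A)
    (hY : ∀ e ∈ Y, ∃ G ∈ Vw K (wh γ ρ W) (W * (β ^ L) ^ i),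
      (∀ a ∈ A, p a = p e → eval (x a) G = 0) ∧ G ∉ germ (x e) (F (p e))) :
    β' * Y.card ≤ A.card := by
  classical
  have hb1 := hP.b_gt_one
  have hVH := H580.isFilt_Vw (k := K) (wh γ ρ W) (H580.wh_ne_zero hW)
  have hcardH : Fintype.card (γ ⊕ ρ) = Fintype.card γ + Fintype.card ρ := Fintype.card_sum
  have hcH : cF + m ≤ Fintype.card γ + Fintype.card ρ := by
    rw [← hm, ← hcardH]
    exact H580.fam_le_card h hE hFH hi
  have hR : 1 ≤ R := by
    by_contra hcon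
    have h0 : R = 0 := by omega
    rw [h0, mul_zero] at hup
    have h1 : 0 < ∏ j ∈ range cF, d j :=
      Finset.prod_pos fun j hj => hd1 j (Finset.mem_range.1 hj)
    have h2 : 1 ≤ W ^ (Fintype.card γ - cF) := Nat.one_le_pow _ _ hW
    have h3 := Nat.mul_pos h1 h2
    omega
  have hsub : ∀ s, A.filter (fun a => p a = s) ⊆ fib p E' s := fun s e he => by
    obtain ⟨h1, h2⟩ := Finset.mem_filter.1 he
    exact mem_fib.2 ⟨hA h1, h2⟩
  refine hat_goodW p x A (β ^ L) hb1.le W hW i₀ i₁ hi (fun j => v (idxH j))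
    (fun k l hkl hl => h.fam_mono hE hP.beta_gt_one hVH.mono hb1.le hFH hkl (hl.trans hi))
    hconst hm hge hcγ hcH d hd1 hR hup F
    (fun s j => van_mono (hsub s) le_rfl (hF1 s j))
    (fun s j => van_mono (hsub s) le_rfl (hF2 s j))
    (fun e he => hF3 e (hA he))
    (Λ := ((((C₁ ^ (Fintype.card γ + Fintype.card ρ) *
          (Fintype.card γ + Fintype.card ρ).factorial) ^ L) ^ i₁ *
        (β ^ L) ^ ((Fintype.card γ + Fintype.card ρ) * (Fintype.card γ + Fintype.card ρ) + 1)))) ?_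
    i (by omega) ?_ Y hYA hY
  · intro B hB hcard
    have hBd : E'.card < (r * β') * B.card := by
      rcases Nat.eq_zero_or_pos r with h0 | h0
      · exfalso
        rw [h0, zero_mul] at hr
        have := hE.card_pos
        omega
      · calc E'.card ≤ r * A.card := hr
          _ < r * (β' * B.card) := Nat.mul_lt_mul_of_pos_left hcard h0
          _ = (r * β') * B.card := by ring
    obtain ⟨e, he, h1⟩ := hat_lowerW hP h hmono hN hW i₁ hFH hi₁ hlo (hB.trans hA) hrq hrq' hBd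
    refine ⟨e, he, ?_⟩
    rw [H580.fib_eq p B (p e)] at h1
    exact h1
  · have h1 := hP.loss (M₁ := Fintype.card γ + Fintype.card ρ) (M₂ := 0)
      (M₃ := Fintype.card γ + Fintype.card ρ) hN (Nat.zero_le N) hN (Nat.zero_le K₀) hi₁
    simp only [pow_zero, one_mul] at h1
    have h3 : (Fintype.card γ + Fintype.card ρ) * (Fintype.card γ + Fintype.card ρ) ≤ N * N :=
      Nat.mul_le_mul hN hN
    set X₂ := ((C₁ ^ (Fintype.card γ + Fintype.card ρ) *
          (Fintype.card γ + Fintype.card ρ).factorial) ^ L) ^ i₁ with hX₂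
    set M₂ := (Fintype.card γ + Fintype.card ρ) * (Fintype.card γ + Fintype.card ρ) with hM₂
    set Q := (2 * (Fintype.card γ + Fintype.card ρ + 2)) ^ (Fintype.card γ + Fintype.card ρ)
      with hQ
    calc Q * β ^ L * (X₂ * (β ^ L) ^ (M₂ + 1))
        = (Q * X₂) * (β ^ L * (β ^ L) ^ (M₂ + 1)) := by ring
      _ ≤ β ^ L * (β ^ L * (β ^ L) ^ (M₂ + 1)) := Nat.mul_le_mul_right _ h1
      _ = (β ^ L) ^ (M₂ + 3) := by ring
      _ < (β ^ L) ^ (i₁ - i) := Nat.pow_lt_pow_right hb1 (by omega)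

/-- the base lower bound in the form of `hat_vert` (one fibre) -/
theorem lower_denseW {N k C₁ L K₀ q : ℕ} (hP : Par N k β C₁ L K₀ q J.card)
    (h : IsUnif c J β E' v)
    (hmono : ∀ j ∈ J, ∀ A B : Finset ι, A ⊆ B → B ⊆ E' → ∀ e ∈ A, c j B e ≤ c j A e)
    (hN : Fintype.card γ ≤ N) {x : ι → γ → K} {W : ℕ} (hW : 1 ≤ W)
    {idxF : ℕ → κ} (i : ℕ) (hi : i ≤ K₀)
    (hFF : IsFam c J idxF i x (fun _ => ()) (restrictTotalDegree γ K) W (β ^ L)) {cF : ℕ}
    (hvF : ∀ j < i, v (idxF j) = cF) (d : ℕ → ℕ) {R q' : ℕ}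
    (hup : (∏ j ∈ range cF, d j) * W ^ (Fintype.card γ - cF) ≤ β ^ L * R)
    (hlo : ∀ B ⊆ E', E'.card < q' * B.card →
      ∃ e ∈ B, R ≤ β ^ L * rkF (restrictTotalDegree γ K)
        (pts x (fib (fun _ => ()) B ((fun _ => ()) e))) W)
    {B : Finset ι} (hB : B ⊆ E') {r : ℕ} (hr : 2 * r ≤ q) (hr' : 2 * r ≤ q')
    (hd : E'.card < r * B.card) :
    (∏ j ∈ range cF, d j) * ((β ^ L) ^ i * W) ^ (Fintype.card γ - cF) ≤
      (β ^ L) ^ (N * N + 3) * rkF (restrictTotalDegree γ K) (pts x B) ((β ^ L) ^ i * W) := by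
  classical
  obtain ⟨e, he, h1⟩ := base_lowerW (p := fun _ => ()) hP h hmono hN hW hi hFF hvF hlo hB hr hr' hd
  have hB2 : fib (fun _ : ι => ()) B ((fun _ : ι => ()) e) = B := H307.fib_unit B ()
  rw [hB2, mul_comm W] at h1
  have hb1 := hP.b_gt_one
  have hloss := hP.loss (M₁ := 0) (M₂ := Fintype.card γ) (M₃ := 0) (K₁ := i) (K₂ := 0)
    (Nat.zero_le N) hN (Nat.zero_le N) hi (Nat.zero_le K₀)
  simp only [pow_zero, one_mul, mul_one] at hloss
  calc (∏ j ∈ range cF, d j) * ((β ^ L) ^ i * W) ^ (Fintype.card γ - cF)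
      = ((∏ j ∈ range cF, d j) * W ^ (Fintype.card γ - cF)) *
          (β ^ L) ^ (i * (Fintype.card γ - cF)) := by rw [mul_pow, ← pow_mul]; ring
    _ ≤ (β ^ L * R) * (β ^ L) ^ (i * (Fintype.card γ - cF)) := Nat.mul_le_mul_right _ hup
    _ = β ^ L * (R * (β ^ L) ^ (i * (Fintype.card γ - cF))) := by ring
    _ ≤ β ^ L * ((((C₁ ^ (Fintype.card γ) * (Fintype.card γ).factorial) ^ L) ^ i *
        (β ^ L) ^ (Fintype.card γ * Fintype.card γ + 1)) *
        rkF (restrictTotalDegree γ K) (pts x B) ((β ^ L) ^ i * W)) := Nat.mul_le_mul_left _ h1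
    _ ≤ β ^ L * ((β ^ L * (β ^ L) ^ (N * N + 1)) *
        rkF (restrictTotalDegree γ K) (pts x B) ((β ^ L) ^ i * W)) := by
        refine Nat.mul_le_mul_left _ (Nat.mul_le_mul_right _ (Nat.mul_le_mul hloss ?_))
        exact Nat.pow_le_pow_right (by omega) (Nat.add_le_add_right (Nat.mul_le_mul hN hN) 1)
    _ = _ := by ring

/-- **[HAT-PACK] over a base scale `W`.**  One hat over a uniform set: outside `Y`
(`r |Y| ≤ |E'|`) the vertical gradients of `hh` are independent, and every polynomial of level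
`W * b ^ (i₀ + 1)` which vanishes on the dense set `E1` is in the germ prime. -/
theorem hat_packW {N k C₁ L K₀ q : ℕ} (hP : Par N k β C₁ L K₀ q J.card)
    (h : IsUnif c J β E' v) (hE : E'.Nonempty)
    (hmono : ∀ j ∈ J, ∀ A B : Finset ι, A ⊆ B → B ⊆ E' → ∀ e ∈ A, c j B e ≤ c j A e)
    (hN0 : 0 < N) (hN : Fintype.card γ + (Fintype.card γ + Fintype.card ρ) ≤ N)
    (hN' : Fintype.card ρ + (Fintype.card γ + Fintype.card ρ) ≤ N) {W : ℕ} (hW : 1 ≤ W)
    (i₀ i₁ : ℕ) {x : ι → γ ⊕ ρ → K} {idxF idxH : ℕ → κ}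
    (hFF : IsFam c J idxF K₀ (fun e => x e ∘ Sum.inl) (fun _ => ()) (restrictTotalDegree γ K) W
      (β ^ L))
    (hFH : IsFam c J idxH K₀ x (fun _ => ()) (Vw K (wh γ ρ W)) W (β ^ L))
    {cF : ℕ} (hcγ : cF ≤ Fintype.card γ)
    (hwF : ∀ i ≤ K₀, v (idxF i) = cF)
    (hwH : ∀ i, i₀ ≤ i → i ≤ i₁ → v (idxH i) = v (idxH i₀))
    (hi₁ : i₁ ≤ K₀) (hgeo : i₀ + 1 + N * N + 4 ≤ i₁)
    (hlong : i₀ * N + (N * N + 5) ≤ K₀)
    {m : ℕ} (hm : v (idxH i₀) = cF + m)
    (d : ℕ → ℕ) (hd1 : ∀ j < cF, 1 ≤ d j) (hdW : ∀ j < cF, d j ≤ W) {R q' : ℕ}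
    (hup : (∏ j ∈ range cF, d j) * W ^ (Fintype.card γ - cF) ≤ β ^ L * R)
    (hlo : ∀ B ⊆ E', E'.card < q' * B.card →
      ∃ e ∈ B, R ≤ β ^ L * rkF (restrictTotalDegree γ K)
        (pts (fun e => x e ∘ Sum.inl) (fib (fun _ => ()) B ((fun _ => ()) e))) W)
    (g : Fin cF → MvPolynomial γ K) (hh : Fin m → MvPolynomial (γ ⊕ ρ) K)
    (hg : ∀ j : Fin cF, g j ∈ van (fun e => x e ∘ Sum.inl) E' (restrictTotalDegree γ K (d j)))
    (hhv : ∀ j : Fin m, hh j ∈ van x E' (Vw K (wh γ ρ W)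
        (W * (β ^ L) ^ kap (i₀ + 1) (fun j => v (idxH j)) (cF + j))))
    (hind : ∀ e ∈ E', LinearIndependent K (fun i => H930.grad (x e)
      ((Fin.append (fun i => rename Sum.inl (g i)) hh :
        Fin (cF + m) → MvPolynomial (γ ⊕ ρ) K) i)))
    {E1 : Finset ι} (hE1 : E1 ⊆ E') (hE1c : E'.card ≤ 2 * E1.card) (r : ℕ)
    (hr : 16 * (N + 1) * (Fintype.card ρ ^ Fintype.card ρ + 1) * (r + 1) ≤ q) (hq' : q ≤ q') :
    ∃ Y ⊆ E', r * Y.card ≤ E'.card ∧ ∀ e ∈ E1, e ∉ Y →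
      LinearIndependent K (fun (i : Fin m) (b : ρ) => eval (x e) (pderiv (Sum.inr b) (hh i))) ∧
      ∀ P ∈ Vw K (wh γ ρ W) (W * (β ^ L) ^ (i₀ + 1)),
        (∀ a ∈ E1, eval (x a) P = 0) → P ∈ H930.germ (x e)
          (Fin.append (fun i => rename Sum.inl (g i)) hh :
            Fin (cF + m) → MvPolynomial (γ ⊕ ρ) K) := by
  classical
  set f : Fin (cF + m) → MvPolynomial (γ ⊕ ρ) K :=
    Fin.append (fun i => rename Sum.inl (g i)) hh with hf
  have hb1 := hP.b_gt_one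
  have hD1 : 1 ≤ (β ^ L) ^ i₀ := Nat.one_le_pow _ _ hb1.le
  have hVT := H580.isFilt_total (k := K) (σ := γ)
  have hVH := H580.isFilt_Vw (k := K) (wh γ ρ W) (H580.wh_ne_zero hW)
  have hmonH : ∀ k l : ℕ, k ≤ l → l ≤ i₀ → v (idxH k) ≤ v (idxH l) := fun k l hkl hl =>
    h.fam_mono hE hP.beta_gt_one hVH.mono hb1.le hFH hkl (by omega)
  have hcardH : Fintype.card (γ ⊕ ρ) = Fintype.card γ + Fintype.card ρ := Fintype.card_sum
  have hcH : cF + m ≤ Fintype.card γ + Fintype.card ρ := by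
    rw [← hm, ← hcardH]
    exact H580.fam_le_card h hE hFH (by omega)
  have hfibE : ∀ s : Unit, fib (fun _ : ι => ()) E' s = E' := fun s => H307.fib_unit E' s
  have hfibA : ∀ (A : Finset ι) (e : ι), fib (fun _ : ι => ()) A ((fun _ : ι => ()) e) = A :=
    fun A e => H307.fib_unit A _
  have hcard_arr : cF + m ≤ N ∧ m ≤ N := by constructor <;> omega
  -- the two parts as elements of `van`
  have hF1 : ∀ j : Fin cF, f (Fin.castAdd m j) ∈ van x E' (Vw K (wh γ ρ W) (d j)) := by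
    intro j
    rw [hf, Fin.append_left]
    refine mem_van.2 ⟨H580.rename_mem_Vw_of_total _ Sum.inl (fun _ => rfl)
      (mem_van.1 (hg j)).1, ?_⟩
    intro e he
    rw [eval_rename]
    exact (mem_van.1 (hg j)).2 e he
  have hF2 : ∀ j : Fin m, f (Fin.natAdd cF j) ∈ van x E'
      (Vw K (wh γ ρ W) (W * (β ^ L) ^ kap (i₀ + 1) (fun j => v (idxH j)) (cF + j))) := by
    intro j
    rw [hf, Fin.append_right]
    exact hhv j
  have hge : ∀ i ≤ i₀, cF ≤ v (idxH i) := by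
    have h1 := (hat_sysW (S := Unit) h hE hP.beta_gt_one hb1 hW (p := fun _ => ()) hFH hdW
      (fun _ => g) (fun s j => by rw [hfibE]; exact hg j) (fun e he => by
        have h2 := (hind e he).comp (Fin.castAdd m) (Fin.castAdd_injective _ _)
        rw [Fintype.linearIndependent_iff] at h2 ⊢
        intro w hw
        apply h2 w
        funext y
        have h3 := hw
        rcases y with y | y
        · have h4 := congrFun h3 y
          simp only [Function.comp_apply, Finset.sum_apply, Pi.smul_apply, hf, Fin.append_left,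
            H930.grad_rename_inl, Sum.elim_inl, Pi.zero_apply] at h4 ⊢
          exact h4
        · simp only [Function.comp_apply, Finset.sum_apply, Pi.smul_apply, hf, Fin.append_left,
            H930.grad_rename_inl, Sum.elim_inr, Pi.zero_apply, smul_zero,
            Finset.sum_const_zero])).1
    intro i hi
    exact h1 i (by omega)
  -- [GOOD] on dense sets
  have hGOOD : ∀ (A : Finset ι), A ⊆ E' → ∀ (r' β' : ℕ), E'.card ≤ r' * A.card →
      2 * (r' * β') ≤ q → β' * (A.filter (fun e => ∃ G ∈ Vw K (wh γ ρ W)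
        (W * (β ^ L) ^ (i₀ + 1)), (∀ a ∈ A, eval (x a) G = 0) ∧
          G ∉ H930.germ (x e) f)).card ≤ A.card := by
    intro A hA r' β' hr' hq''
    refine hat_GOODW (S := Unit) hP h hE hmono (by omega) hW i₀ i₁ (by omega)
      (p := fun _ => ()) (idxH := idxH) (fun j hj => hFH j (by omega)) hi₁
      (fun i h1 h2 => hwH i h1 h2.le) hcγ hm hge d hd1 hup hlo (fun _ => f)
      (fun s j => by rw [hfibE]; exact hF1 j) (fun s j => by rw [hfibE]; exact hF2 j) hind hA hr'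
      hq'' (hq''.trans hq') (i₀ + 1) (by omega) _ (Finset.filter_subset _ _) ?_
    intro e he
    obtain ⟨G, h1, h2, h3⟩ := (Finset.mem_filter.1 he).2
    exact ⟨G, h1, fun a ha _ => h2 a ha, h3⟩
  set M := Fintype.card ρ with hM
  have hqN : 16 * (N * (M ^ M * r)) + 16 * (N * r) + 2 ≤ q := by
    refine le_trans ?_ hr
    have e1 : 16 * (N + 1) * (M ^ M + 1) * (r + 1) = 16 * (N * (M ^ M * r)) + 16 * (N * r) +
      16 * (N * M ^ M) + 16 * N + 16 * ((M ^ M + 1) * (r + 1)) := by ring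
    rw [e1]
    have e2 : 1 ≤ (M ^ M + 1) * (r + 1) := Nat.mul_pos (Nat.succ_pos _) (Nat.succ_pos _)
    omega
  -- exceptional set of [GOOD]
  set Y₁ := E1.filter (fun e => ∃ G ∈ Vw K (wh γ ρ W)
        (W * (β ^ L) ^ (i₀ + 1)), (∀ a ∈ E1, eval (x a) G = 0) ∧
          G ∉ H930.germ (x e) f) with hY₁
  have hY₁c : 2 * r * Y₁.card ≤ E'.card := by
    refine (hGOOD E1 hE1 2 (2 * r) hE1c ?_).trans (Finset.card_le_card hE1)
    have : r ≤ N * r := Nat.le_mul_of_pos_left r hN0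
    omega
  -- exceptional set of the vertical independence
  have hNb : N + 3 ≤ β ^ L := by
    have h1 := hP.hβ
    have h2 := hP.hk
    have h3 : N + 2 ≤ k * (N + 2) := Nat.le_mul_of_pos_left _ h2
    have h4 : β ≤ β ^ L := Nat.le_self_pow hP.hL.ne' _
    omega
  have hconstb : 2 ^ N * (N + 1) ^ N ≤ β ^ L := by
    have h1 := hP.hconst
    have h4 : β ≤ β ^ L := Nat.le_self_pow hP.hL.ne' _
    refine le_trans ?_ (h1.trans h4)
    calc 2 ^ N * (N + 1) ^ N ≤ 2 ^ N * (N + 2) ^ N :=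
          Nat.mul_le_mul_left _ (Nat.pow_le_pow_left (by omega) _)
      _ = (2 * (N + 2)) ^ N := by rw [mul_pow]
      _ ≤ (2 * (N + 2)) ^ N * (C₁ ^ N * N.factorial) ^ (2 * K₀) :=
          Nat.le_mul_of_pos_right _ (Nat.pow_pos (hP.const_pos N))
  obtain ⟨Y₂, hY₂E, hY₂c, hY₂⟩ := H930.hat_vert E' x hcγ g hh d hd1
    W ((β ^ L) ^ i₀) hW hD1
    (fun j => (mem_restrictTotalDegree _ _ _).1 (mem_van.1 (hg j)).1)
    (fun j hj => (hdW j hj).trans (Nat.le_mul_of_pos_right _ hD1))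
    (fun j => by
      refine H580.Vw_mono _ (Nat.mul_le_mul_left _ (Nat.pow_le_pow_right hb1.le ?_))
        (mem_van.1 (hhv j)).1
      exact H580.kap_le_of_lt (i₀ + 1) (fun j => v (idxH j))
        (fun k l hkl hl => hmonH k l hkl (by omega)) (cF + j) i₀
        (by rw [hm]; have := j.2; omega))
    (fun e he i => by
      refine Fin.addCases (fun i => ?_) (fun i => ?_) i
      · exact (mem_van.1 (hF1 i)).2 e he
      · exact (mem_van.1 (hF2 i)).2 e he)
    hind (2 * r * N)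
    (fun A hA hc => by
      have h1 := hGOOD A hA (2 * r * N) 2 hc.le (by
        have e1 : 2 * (2 * r * N * 2) = 8 * (N * r) := by ring
        omega)
      refine ⟨A \ A.filter (fun e => ∃ G ∈ Vw K (wh γ ρ W)
        (W * (β ^ L) ^ (i₀ + 1)), (∀ a ∈ A, eval (x a) G = 0) ∧
          G ∉ H930.germ (x e) f), Finset.sdiff_subset, ?_, ?_⟩
      · rw [Finset.card_sdiff_of_subset (Finset.filter_subset _ _)]
        omega
      · intro e he F hF hF0
        obtain ⟨h2, h3⟩ := Finset.mem_sdiff.1 he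
        by_contra hcon
        refine h3 (Finset.mem_filter.2 ⟨h2, F, ?_, hF0, hcon⟩)
        refine H580.Vw_mono _ ?_ hF
        calc (M + 1) * (W * (β ^ L) ^ i₀) ≤ β ^ L * (W * (β ^ L) ^ i₀) :=
              Nat.mul_le_mul_right _ (by omega)
          _ = W * (β ^ L) ^ (i₀ + 1) := by rw [pow_succ]; ring)
    ((β ^ L) ^ (i₀ * N + (N * N + 5))) ((β ^ L) ^ (N * N + 3))
    (Nat.one_le_pow _ _ hb1.le)
    (fun A' hA' hc => by
      have h1 := lower_denseW hP h hmono (by omega) (x := fun e => x e ∘ Sum.inl) hW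
        (i₀ * N + (N * N + 5)) (by omega) (fun j hj => hFF j (by omega))
        (fun j hj => hwF j (by omega)) d hup hlo hA'
        (r := 2 * (2 * r * N) * M ^ M + 1) (by
          have e1 : 2 * (2 * (2 * r * N) * M ^ M + 1) = 8 * (N * (M ^ M * r)) + 2 := by ring
          omega) (by
          have e1 : 2 * (2 * (2 * r * N) * M ^ M + 1) = 8 * (N * (M ^ M * r)) + 2 := by ring
          omega) hc
      have e2 : H307.pts (fun e => x e ∘ Sum.inl) A' =
          A'.image fun e => fun a => x e (Sum.inl a) := H580.pts_eq _ _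
      rw [e2] at h1
      exact h1)
    (by
      have e1 : 2 ^ (Fintype.card γ + (cF + m)) ≤ 2 ^ N :=
        Nat.pow_le_pow_right (by norm_num) (by omega)
      have e2 : (M + 1 + (cF + m)) ^ (Fintype.card γ + M) ≤ (N + 1) ^ N :=
        (Nat.pow_le_pow_left (by omega) _).trans (Nat.pow_le_pow_right (by omega) (by omega))
      have e3 : ((β ^ L) ^ i₀) ^ m ≤ (β ^ L) ^ (i₀ * N) := by
        rw [← pow_mul]
        exact Nat.pow_le_pow_right hb1.le (Nat.mul_le_mul_left _ hcard_arr.2)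
      calc 2 ^ (Fintype.card γ + (cF + m)) * (β ^ L) ^ (N * N + 3) *
            (M + 1 + (cF + m)) ^ (Fintype.card γ + M) * ((β ^ L) ^ i₀) ^ m
          ≤ 2 ^ N * (β ^ L) ^ (N * N + 3) * (N + 1) ^ N * (β ^ L) ^ (i₀ * N) :=
            Nat.mul_le_mul (Nat.mul_le_mul (Nat.mul_le_mul_right _ e1) e2) e3
        _ = (2 ^ N * (N + 1) ^ N) * ((β ^ L) ^ (N * N + 3) * (β ^ L) ^ (i₀ * N)) := by ring
        _ ≤ β ^ L * ((β ^ L) ^ (N * N + 3) * (β ^ L) ^ (i₀ * N)) :=
            Nat.mul_le_mul_right _ hconstb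
        _ = (β ^ L) ^ (i₀ * N + (N * N + 4)) := by ring
        _ ≤ (β ^ L) ^ (i₀ * N + (N * N + 5)) := Nat.pow_le_pow_right hb1.le (by omega))
  refine ⟨Y₁ ∪ Y₂, Finset.union_subset ((Finset.filter_subset _ _).trans hE1) hY₂E, ?_, ?_⟩
  · have h1 : 2 * r * Y₂.card ≤ E'.card := by
      have h2 : N * (2 * r * Y₂.card) ≤ N * E'.card := by
        calc N * (2 * r * Y₂.card) = 2 * r * N * Y₂.card := by ring
          _ ≤ m * E'.card := hY₂c
          _ ≤ N * E'.card := Nat.mul_le_mul_right _ hcard_arr.2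
      exact Nat.le_of_mul_le_mul_left h2 hN0
    have h3 : r * (Y₁ ∪ Y₂).card ≤ r * (Y₁.card + Y₂.card) :=
      Nat.mul_le_mul_left _ (Finset.card_union_le _ _)
    have h4 : r * (Y₁.card + Y₂.card) = r * Y₁.card + r * Y₂.card := by ring
    have h5 : 2 * r * Y₁.card = 2 * (r * Y₁.card) := by ring
    have h6 : 2 * r * Y₂.card = 2 * (r * Y₂.card) := by ring
    omega
  · intro e he heY
    rw [Finset.mem_union, not_or] at heY
    refine ⟨hY₂ e (hE1 he) heY.2, ?_⟩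
    intro P hP hP0
    by_contra hcon
    exact heY.1 (Finset.mem_filter.2 ⟨he, P, hP, hP0, hcon⟩)

end unif

end Vale.Agent.P054.T3.H517
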