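import Vale.Agent.P054.T3.H517.HatPackW
import Vale.Agent.P054.T3.H533.Seam3
import Vale.Agent.P054.T3.H955.HData
import Vale.Agent.P054.T2.H794.Leaves

/-!
# P054 / T3, SEAM V: `HData` (input of Lemma V) from a window `WD` on which `F` is dropped and
the leaf family `L1` is not
-/

set_option autoImplicit false
set_option linter.unusedSectionVars false
set_option linter.unusedVariables false

open MvPolynomial Module Finset

namespace Vale.Agent.P054.T3.H517

open Vale.Agent.P054.T2 Vale.Agent.P054.T2.SecC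
open Vale.Agent.P054.T2.H580 (Vw wh Par kap)
open Vale.Agent.P054.T2.H307 (van pts mem_van mem_pts van_mono IsUnif IsFam gfr gr gsp core
  core_subset core_value core_zero grad_mem_gsp fib mem_fib Ed NN xF xL xH1 xH2 wB)
open Vale.Agent.P054.T2.H686 (mu meet Qf Crd meet_comm)
open Vale.Agent.P054.T2.H930 (hatPt Pt germ grad)
open Vale.Agent.P054.T3.H182 (Base F5 cW JW mem_JW card_JW cW_mono fam_F fam_L1 fam_H1)
open Vale.Agent.P054.T3.H533.B (WD)
open Vale.Agent.P054.T3.H955 (HData)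

variable {n : ℕ}

/-- a leaf family of value `0`: all gradients vanish -/
theorem leaf_zero {S : Type*} {p : Ed n ℝ → S} {E' : Finset (Ed n ℝ)} {T : ℕ} {e : Ed n ℝ}
    (hgr : gfr xL p (restrictTotalDegree (Fin n) ℝ) T E' e = 0) :
    ∀ G : MvPolynomial (Fin n) ℝ, G.totalDegree ≤ T →
        (∀ e' ∈ E', p e' = p e → eval (mu e'.1 e'.2) G = 0) →
        ∀ i, eval (mu e.1 e.2) (pderiv i G) = 0 := by
  intro G hG hG0 i
  have hmem : G ∈ van xL (fib p E' (p e)) (restrictTotalDegree (Fin n) ℝ T) :=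
    mem_van.2 ⟨(mem_restrictTotalDegree _ _ _).2 hG,
      fun e' he' => hG0 e' (mem_fib.1 he').1 (mem_fib.1 he').2⟩
  have h1 : gsp xL (fib p E' (p e)) (restrictTotalDegree (Fin n) ℝ T) (xL e) = ⊥ := by
    unfold gfr gr at hgr
    exact Submodule.finrank_eq_zero.1 hgr
  have h2 := grad_mem_gsp hmem (xL e)
  rw [h1, Submodule.mem_bot] at h2
  exact congrFun h2 i

/-- the concrete form of the systems of `HData` -/
structure HP (W b i₀ : ℕ) (E' : Finset (Ed n ℝ)) (v : F5 × ℕ → ℕ) (dF : ℕ → ℕ)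
    {E1 E2 : Finset (ZZ n × ZZ n)} {N c₀ c₁ : ℕ}
    (H : HData n E' E1 E2 (wB W) N c₀ c₁) : Prop where
  hH1 : c₀ + c₁ = v (F5.H1, i₀)
  hc₁ : c₁ ≤ 2 * (n + 1)
  f_van : ∀ j : Fin c₀, H.f j ∈ van xF E' (restrictTotalDegree (Crd n) ℝ (dF j))
  h_van : ∀ j : Fin c₁, H.h j ∈ van xH1 E'
    (Vw ℝ (wB W) (W * b ^ kap (i₀ + 1) (fun i => v (F5.H1, i)) (c₀ + j)))
  f_ind : ∀ e ∈ E', LinearIndependent ℝ (fun j => grad (xF e) (H.f j))
  H1_ind : ∀ e ∈ E', LinearIndependent ℝ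
    (fun j => grad (xH1 e) (Fin.append (fun i => rename Sum.inl (H.f i)) H.h j))

/-- lower bounds for the numbers `C`, `q` -/
def CV (n : ℕ) : ℕ := 2 * (NN n * NN n) + NN n + 10

/-- lower bounds for the numbers `C`, `q` -/
def qV (n : ℕ) : ℕ :=
  16 * (NN n + 1) * (Fintype.card (Pt n) ^ Fintype.card (Pt n) + 1) * (16 + 1)

/-- **SEAM V**: at a window on which `F` has the value `cF` and `L1` the value `0`. -/
theorem exists_HData {k β C₁ L K₀ q C W i₀ i₁ : ℕ} {E' : Finset (Ed n ℝ)} {v : F5 × ℕ → ℕ}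
    {cF c1 c2 : ℕ} (hC : CV n ≤ C) (hq : qV n ≤ q)
    (A : WD n W k β C₁ L K₀ q C i₀ i₁ E' v cF c1 c2)
    (hvF : ∀ i ≤ K₀, v (F5.F, i) = cF) (hv1 : ∀ i ≤ K₀, v (F5.L1, i) = 0) :
    ∃ (E1 E2 : Finset (ZZ n × ZZ n)) (c₁ : ℕ)
      (H : HData n E' E1 E2 (wB W) (W * (β ^ L) ^ i₀) cF c₁),
      HP W (β ^ L) i₀ E' v A.bF.d H ∧ 4 * (E' \ E2).card ≤ E'.card := by
  classical
  have hC1 : 1 ≤ C := by unfold CV at hC; omega
  have hNN : NN n = 6 * n + 5 := rfl
  have hcC : Fintype.card (Crd n) = 2 * n + 1 := by simp [Crd]; ring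
  have hcP : Fintype.card (Pt n) = 2 * n + 2 := by simp [Pt]; ring
  have hgeo := A.geo
  have hlong := A.long
  have hW := A.hW
  have hCC : 2 * (NN n * NN n) + NN n + 10 ≤ C := hC
  have hi01 : i₀ + C ≤ i₁ := by
    have : i₀ ≤ C * i₀ := Nat.le_mul_of_pos_left _ (by omega)
    omega
  have hi1K : NN n * i₀ + C ≤ K₀ := by
    have h1 : NN n * i₀ ≤ C * i₁ := Nat.mul_le_mul (by omega) (by omega)
    omega
  have hi1K' : i₁ ≤ K₀ := by
    have h1 : i₁ ≤ C * i₁ := Nat.le_mul_of_pos_left _ (by omega)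
    omega
  have hb1 := A.par.b_gt_one
  have hβ1 := A.par.beta_gt_one
  have hmono : ∀ j ∈ JW K₀, ∀ A B : Finset (Ed n ℝ), A ⊆ B → B ⊆ E' → ∀ e ∈ A,
      cW n ℝ W (β ^ L) j B e ≤ cW n ℝ W (β ^ L) j A e :=
    fun j _ A B hAB _ e _ => cW_mono _ _ j hAB e
  -- the system of `F`
  have hcFγ := A.bF.c_le
  set f : Fin cF → MvPolynomial (Crd n) ℝ := A.bF.f () with hfdef
  have hf : ∀ j : Fin cF, f j ∈ van xF E' (restrictTotalDegree (Crd n) ℝ (A.bF.d j)) := by
    intro j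
    have h1 := A.bF.mem_van () j
    rwa [H307.fib_unit] at h1
  have hfind : ∀ e ∈ E', LinearIndependent ℝ (fun j => grad (xF e) (f j)) :=
    fun e he => A.bF.ind e he
  -- the system of the hat
  have hWb : (wB W : Crd n ⊕ Pt n → ℕ) = wh (Crd n) (Pt n) W := rfl
  obtain ⟨hge1, hsys1⟩ := hat_sysW (S := Unit) A.unif A.ne hβ1 hb1 hW (x := xH1 (n := n) (K := ℝ))
    (p := fun _ => ()) (fam_H1 (K := ℝ) W (β ^ L) K₀) A.bF.d_le (fun _ => f)
    (fun s j => by rw [H307.fib_unit]; exact hf j) hfind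
  obtain ⟨c₁, hc₁⟩ : ∃ c₁, cF + c₁ = v (F5.H1, i₀) :=
    ⟨v (F5.H1, i₀) - cF, by have := hge1 i₀ (by omega); omega⟩
  obtain ⟨F1, hF1a, hF1b, hF1c, hF1d⟩ := hsys1 i₀ (by omega) c₁ hc₁
  let hh : Fin c₁ → MvPolynomial (Crd n ⊕ Pt n) ℝ := fun j => F1 () (Fin.natAdd _ j)
  have happ1 : (Fin.append (fun i => rename Sum.inl (f i)) hh :
      Fin (cF + c₁) → MvPolynomial (Crd n ⊕ Pt n) ℝ) = F1 () := by
    funext j
    refine Fin.addCases (fun i => ?_) (fun i => ?_) j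
    · rw [Fin.append_left, hF1a]
    · rw [Fin.append_right]
  have hhv : ∀ j : Fin c₁, hh j ∈ van xH1 E'
      (Vw ℝ (wh (Crd n) (Pt n) W) (W * (β ^ L) ^ kap (i₀ + 1) (fun i => v (F5.H1, i)) (cF + j))) :=
    fun j => by
      have h1 := hF1c () j
      rwa [H307.fib_unit] at h1
  have hHind : ∀ e ∈ E', LinearIndependent ℝ (fun i => H930.grad (xH1 e)
      ((Fin.append (fun i => rename Sum.inl (f i)) hh :
        Fin (cF + c₁) → MvPolynomial (Crd n ⊕ Pt n) ℝ) i)) := by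
    intro e he
    rw [happ1]
    exact hF1d e he
  -- the edges with exact values
  set E1 := core (cW n ℝ W (β ^ L)) (JW K₀) v E' 1 with hE1
  have hE1sub : E1 ⊆ E' := core_subset _ _
  have hq16 : 16 ≤ q := by
    refine le_trans ?_ hq
    unfold qV
    have e1 : 1 ≤ (NN n + 1) * (Fintype.card (Pt n) ^ Fintype.card (Pt n) + 1) :=
      Nat.mul_pos (Nat.succ_pos _) (Nat.succ_pos _)
    calc 16 ≤ 272 * 1 := by norm_num
      _ ≤ 272 * ((NN n + 1) * (Fintype.card (Pt n) ^ Fintype.card (Pt n) + 1)) :=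
          Nat.mul_le_mul_left _ e1
      _ = 16 * (NN n + 1) * (Fintype.card (Pt n) ^ Fintype.card (Pt n) + 1) * (16 + 1) := by
          ring
  have hE1c : 16 * E'.card ≤ 16 * E1.card + E'.card := by
    refine A.unif.card_core' hmono (Finset.Subset.refl _) 1 16 ?_ (by omega)
    refine le_trans ?_ A.par.hq
    have h1 : 1 ≤ K₀ * (L * k) := Nat.mul_pos (by omega) (Nat.mul_pos A.par.hL A.par.hk)
    exact Nat.mul_le_mul hq16 (Nat.mul_le_mul_right _ h1)
  have hE1d : E'.card ≤ 2 * E1.card := by omega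
  -- exceptional sets of the hat
  obtain ⟨Y₁, hY₁E, hY₁c, hY₁⟩ := hat_packW (idxF := fun i => (F5.F, i))
    (idxH := fun i => (F5.H1, i)) (N := NN n) A.par A.unif A.ne hmono (by omega)
    (by rw [hcC, hcP]; omega) (by rw [hcC, hcP]; omega) hW i₀ i₁ (x := xH1 (n := n) (K := ℝ))
    (fam_F (K := ℝ) W (β ^ L) K₀) (fam_H1 (K := ℝ) W (β ^ L) K₀) hcFγ (fun i hi => hvF i hi)
    A.winH1 hi1K' (by omega) (by rw [Nat.mul_comm]; omega) hc₁.symm A.bF.d A.bF.d_pos A.bF.d_le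
    A.bF.up
    (q' := q) (fun B hB hc => A.bF.low B hB hc) f hh hf hhv hHind hE1sub hE1d 16 hq le_rfl
  set E2 := E1 \ Y₁ with hE2
  have hE2card : 4 * (E' \ E2).card ≤ E'.card := by
    have h1 : E' \ E2 ⊆ (E' \ E1) ∪ Y₁ := by
      intro e he
      obtain ⟨h1, h2⟩ := Finset.mem_sdiff.1 he
      rw [Finset.mem_union, Finset.mem_sdiff]
      by_cases h3 : e ∈ E1
      · refine Or.inr ?_
        by_contra h4
        exact h2 (Finset.mem_sdiff.2 ⟨h3, h4⟩)
      · exact Or.inl ⟨h1, h3⟩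
    have h2 := Finset.card_le_card h1
    have h3 := Finset.card_union_le (E' \ E1) Y₁
    have h5 : (E' \ E1).card = E'.card - E1.card := Finset.card_sdiff_of_subset hE1sub
    omega
  have hE2ne : E2.Nonempty := by
    rw [Finset.nonempty_iff_ne_empty]
    intro h0
    rw [h0, Finset.sdiff_empty] at hE2card
    have := A.ne.card_pos
    omega
  have hmem2 : ∀ e ∈ E2, e ∈ E1 ∧ e ∉ Y₁ := fun e he => Finset.mem_sdiff.1 he
  obtain ⟨e₂, he₂⟩ := hE2ne
  have hc₁le : c₁ ≤ 2 * (n + 1) := by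
    have h1 := (hY₁ e₂ (hmem2 e₂ he₂).1 (hmem2 e₂ he₂).2).1.fintype_card_le_finrank
    rw [Fintype.card_fin, Module.finrank_fintype_fun_eq_card, hcP] at h1
    omega
  have hWN : W ≤ W * (β ^ L) ^ i₀ := Nat.le_mul_of_pos_right _ (Nat.one_le_pow _ _ hb1.le)
  have hlev : (2 * n + 2) * (W * (β ^ L) ^ i₀) + 2 * (W * (β ^ L) ^ i₀) ≤
      W * (β ^ L) ^ (i₀ + 1) := by
    have h1 := A.par.hβ
    have h2 := A.par.hk
    have h3 : NN n + 2 ≤ k * (NN n + 2) := Nat.le_mul_of_pos_left _ h2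
    have h4 : β ≤ β ^ L := Nat.le_self_pow A.par.hL.ne' _
    calc (2 * n + 2) * (W * (β ^ L) ^ i₀) + 2 * (W * (β ^ L) ^ i₀)
        = (2 * n + 4) * (W * (β ^ L) ^ i₀) := by ring
      _ ≤ β ^ L * (W * (β ^ L) ^ i₀) := Nat.mul_le_mul_right _ (by omega)
      _ = W * (β ^ L) ^ (i₀ + 1) := by rw [pow_succ]; ring
  have hVH := H580.isFilt_Vw (k := ℝ) (wh (Crd n) (Pt n) W) (H580.wh_ne_zero hW)
  have hmonH1 : ∀ k l : ℕ, k ≤ l → l < i₀ + 1 → v (F5.H1, k) ≤ v (F5.H1, l) :=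
    fun k l hkl hl => A.unif.fam_mono A.ne hβ1 hVH.mono hb1.le (fam_H1 (K := ℝ) W (β ^ L) K₀) hkl
      (by omega)
  have hleaf : ∀ e ∈ E1, gfr xL Prod.fst (restrictTotalDegree (Fin n) ℝ)
      (W * (β ^ L) ^ i₀) E' e = 0 := by
    intro e he
    have h1 := core_value he (F5.L1, i₀) (mem_JW.2 (by omega))
    rw [core_zero, hv1 i₀ (by omega)] at h1
    exact h1
  let H : HData n E' E1 E2 (wB W) (W * (β ^ L) ^ i₀) cF c₁ :=
    { adj := A.adj
      sub := hE1sub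
      sub' := Finset.sdiff_subset
      wt_pos := fun x => le_rfl
      wt_le := fun x => (H307.wB_le hW x).trans hWN
      leaf := fun e he => leaf_zero (hleaf e he)
      f := f
      h := hh
      f_mem := fun j => by
        refine H580.Vw_mono _ ?_ (H580.rename_mem_Vw_of_total _ Sum.inl (fun _ => rfl)
          (mem_van.1 (hf j)).1)
        exact (A.bF.d_le j j.2).trans hWN
      h_mem := fun j => by
        refine H580.Vw_mono _ (Nat.mul_le_mul_left _ (Nat.pow_le_pow_right hb1.le ?_))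
          (mem_van.1 (hhv j)).1
        exact H580.kap_le_of_lt (i₀ + 1) (fun i => v (F5.H1, i)) hmonH1
          (cF + j) i₀ (by rw [← hc₁]; have := j.2; omega)
      f_zero := fun j e he => (mem_van.1 (hf j)).2 e he
      h_zero := fun j e he => (mem_van.1 (hhv j)).2 e he
      f_ind := fun e he => hfind e (hE1sub (hmem2 e he).1)
      h_ind := fun e he => (hY₁ e (hmem2 e he).1 (hmem2 e he).2).1
      good := fun e he P hP hP0 =>
        (hY₁ e (hmem2 e he).1 (hmem2 e he).2).2 P (H580.Vw_mono _ hlev hP) hP0 }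
  refine ⟨E1, E2, c₁, H, ?_, hE2card⟩
  exact
    { hH1 := hc₁
      hc₁ := hc₁le
      f_van := hf
      h_van := hhv
      f_ind := hfind
      H1_ind := hHind }

end Vale.Agent.P054.T3.H517
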