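import Vale.Agent.P054.T3.H461.WU
import Vale.Agent.P054.T2.H428.SecC
import Vale.Agent.P054.T2.H307.Fam

/-!
# P054 / T3: the families `F`, `L1`, `L2` over the reversed edges
-/

set_option autoImplicit false
set_option linter.unusedSectionVars false
set_option linter.unusedVariables false

open MvPolynomial Module Finset

namespace Vale.Agent.P054.T3.H517

open Vale.Agent.P054.T2 Vale.Agent.P054.T2.SecC
open Vale.Agent.P054.T2.H307 (van mem_van gfr gr gsp fib mem_fib Ed xF xL)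
open Vale.Agent.P054.T2.H686 (mu meet Qf Crd meet_comm mu_comm)
open Vale.Agent.P054.T3.H461 (FamU)

variable {n : ℕ}

theorem swp_swp (A : Finset (ZZ n × ZZ n)) : swp (swp A) = A := by
  ext e
  rw [mem_swp, mem_swp, Prod.swap_swap]

theorem card_swp (A : Finset (ZZ n × ZZ n)) : (swp A).card = A.card := by
  unfold swp
  exact Finset.card_map _

theorem swp_subset {A B : Finset (ZZ n × ZZ n)} (h : A ⊆ B) : swp A ⊆ swp B := by
  intro e he
  rw [mem_swp] at he ⊢
  exact h he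

theorem swp_subset' {A B : Finset (ZZ n × ZZ n)} (h : A ⊆ swp B) : swp A ⊆ B := by
  have h1 := swp_subset h
  rwa [swp_swp] at h1

theorem swp_nonempty {A : Finset (ZZ n × ZZ n)} (h : A.Nonempty) : (swp A).Nonempty := by
  rw [← Finset.card_pos, card_swp]
  exact h.card_pos

/-- first end points of the reversed edges = second end points -/
theorem image_fst_swp (A : Finset (ZZ n × ZZ n)) [DecidableEq (ZZ n)] :
    (swp A).image Prod.fst = A.image Prod.snd := by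
  ext s
  simp only [Finset.mem_image]
  constructor
  · rintro ⟨e, he, rfl⟩
    exact ⟨e.swap, mem_swp.1 he, rfl⟩
  · rintro ⟨e, he, rfl⟩
    exact ⟨e.swap, mem_swp.2 (by rwa [Prod.swap_swap]), rfl⟩

theorem image_snd_swp (A : Finset (ZZ n × ZZ n)) [DecidableEq (ZZ n)] :
    (swp A).image Prod.snd = A.image Prod.fst := by
  rw [← image_fst_swp, swp_swp]

/-- the gradient ranks over the reversed edges -/
theorem gfr_swp {S σ : Type*} [Fintype σ] {x x' : Ed n ℝ → σ → ℝ} {p p' : Ed n ℝ → S}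
    (V : ℕ → Submodule ℝ (MvPolynomial σ ℝ)) (T : ℕ) {A : Finset (Ed n ℝ)}
    (hx : ∀ a ∈ A, x' a = x a.swap) (hp : ∀ a ∈ A, p' a = p a.swap) {e : Ed n ℝ} (he : e ∈ A) :
    gfr x p V T (swp A) e.swap = gfr x' p' V T A e := by
  have hvan : van x (fib p (swp A) (p e.swap)) (V T) = van x' (fib p' A (p' e)) (V T) := by
    ext f
    rw [mem_van, mem_van]
    constructor
    · rintro ⟨h1, h2⟩
      refine ⟨h1, fun a ha => ?_⟩
      obtain ⟨ha1, ha2⟩ := mem_fib.1 ha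
      rw [hx a ha1]
      refine h2 a.swap (mem_fib.2 ⟨mem_swp.2 (by rwa [Prod.swap_swap]), ?_⟩)
      rw [← hp a ha1, ha2, hp e he]
    · rintro ⟨h1, h2⟩
      refine ⟨h1, fun a ha => ?_⟩
      obtain ⟨ha1, ha2⟩ := mem_fib.1 ha
      have ha3 := mem_swp.1 ha1
      have h3 := h2 a.swap (mem_fib.2 ⟨ha3, by
        rw [hp _ ha3, Prod.swap_swap, ha2, hp e he]⟩)
      rwa [hx _ ha3, Prod.swap_swap] at h3
  unfold gfr gr gsp
  rw [hvan, hx e he]

/-- **transport of a family to the reversed edges** -/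
theorem famU_swp {S σ : Type*} [Fintype σ] [DecidableEq σ] {x x' : Ed n ℝ → σ → ℝ}
    {p p' : Ed n ℝ → S} {b β M K₀ : ℕ} {E : Finset (Ed n ℝ)} {v : ℕ → ℕ}
    (hx : ∀ a ∈ E, x' a = x a.swap) (hp : ∀ a ∈ E, p' a = p a.swap)
    (h : FamU x' p' b β M K₀ E v) : FamU x p b β M K₀ (swp E) v := by
  have key : ∀ i, ∀ A ⊆ swp E, ∀ e ∈ A, gfr x p (restrictTotalDegree σ ℝ) (b ^ i) A e =
      gfr x' p' (restrictTotalDegree σ ℝ) (b ^ i) (swp A) e.swap := by
    intro i A hA e he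
    have hA' : swp A ⊆ E := swp_subset' hA
    have h1 := gfr_swp (x := x) (p := p) (restrictTotalDegree σ ℝ) (b ^ i) (A := swp A)
      (fun a ha => hx a (hA' ha)) (fun a ha => hp a (hA' ha)) (e := e.swap)
      (mem_swp.2 (by rwa [Prod.swap_swap]))
    rwa [swp_swp, Prod.swap_swap] at h1
  refine ⟨h.mono, ?_, ?_⟩
  · intro i hi A hA e he
    rw [key i A hA e he]
    exact h.le i hi (swp A) (swp_subset' hA) e.swap (mem_swp.2 (by rwa [Prod.swap_swap]))
  · intro i hi A hA hAv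
    have h1 := h.small i hi (swp A) (swp_subset' hA) (fun e he => by
      have h2 := mem_swp.1 he
      have h3 := hAv _ h2
      rwa [key i A hA _ h2, Prod.swap_swap] at h3)
    rwa [card_swp] at h1 ⊢

variable {b β M K₀ : ℕ} {E : Finset (Ed n ℝ)} {v : ℕ → ℕ}

theorem adj_swp (hadj : ∀ e ∈ E, e.1.1 0 ≠ e.2.1 0 ∧ Qf (e.1 - e.2) = 0) :
    ∀ e ∈ swp E, e.1.1 0 ≠ e.2.1 0 ∧ Qf (e.1 - e.2) = 0 := by
  intro e he
  obtain ⟨h1, h2⟩ := hadj _ (mem_swp.1 he)
  refine ⟨fun h => h1 h.symm, ?_⟩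
  have h3 : Qf (e.1 - e.2) = Qf (e.2 - e.1) := by
    simp only [Qf, Prod.fst_sub, Prod.snd_sub, Pi.sub_apply]
    exact Finset.sum_congr rfl fun x _ => by ring
  rw [h3]
  exact h2

theorem famU_F_swp (hadj : ∀ e ∈ E, e.1.1 0 ≠ e.2.1 0 ∧ Qf (e.1 - e.2) = 0)
    (h : FamU (xF (n := n) (K := ℝ)) (fun _ => ()) b β M K₀ E v) :
    FamU (xF (n := n) (K := ℝ)) (fun _ => ()) b β M K₀ (swp E) v :=
  famU_swp (fun a ha => meet_comm (hadj a ha).1 (hadj a ha).2) (fun _ _ => rfl) h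

theorem famU_L2_swp (h : FamU (xL (n := n) (K := ℝ)) Prod.snd b β M K₀ E v) :
    FamU (xL (n := n) (K := ℝ)) Prod.fst b β M K₀ (swp E) v :=
  famU_swp (fun a ha => mu_comm a.1 a.2) (fun _ _ => rfl) h

theorem famU_L1_swp (h : FamU (xL (n := n) (K := ℝ)) Prod.fst b β M K₀ E v) :
    FamU (xL (n := n) (K := ℝ)) Prod.snd b β M K₀ (swp E) v :=
  famU_swp (fun a ha => mu_comm a.1 a.2) (fun _ _ => rfl) h

end Vale.Agent.P054.T3.H517
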