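import Vale.Agent.P054.T3.H517.SeamV
import Vale.Agent.P054.T3.H517.Swp
import Vale.Agent.P054.T3.H517.LemmaVT
import Vale.Agent.P054.T3.H807.Gain
import Vale.Agent.P054.T2.H441.StabEz

/-!
# P054 / T3, SEAM V, final form: the vertices of a dense subset, from the lossless families

`seamV` (first end points), `seamV'` (second end points): at a fine level `k₀` such that on the
window `[k₀, k₀ + lenV)` the family `F` is constant and has dropped, and the leaf family of the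
side has not dropped.
-/

set_option autoImplicit false
set_option linter.unusedSectionVars false
set_option linter.unusedVariables false

open MvPolynomial Module Finset

namespace Vale.Agent.P054.T3.H517

open Vale.Agent.P054I Vale.Agent.P054K
open Vale.Agent.P054.T2 Vale.Agent.P054.T2.SecC
open Vale.Agent.P054.T2.H580 (Vw wh Par kap)
open Vale.Agent.P054.T2.H307 (Ed NN xF xL xH1 xH2 wB fib mem_fib)
open Vale.Agent.P054.T2.H686 (mu meet Qf Crd dists Ez Gm E zt Ez_pairs)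
open Vale.Agent.P054.T2.H930 (Pt)
open Vale.Agent.P054.T2.H84 (Sg mem_Sg)
open Vale.Agent.P054.T2.H588 (mat KK kP)
open Vale.Agent.P054.T2.H431 (constF)
open Vale.Agent.P054.T3.H461 (FamU)
open Vale.Agent.P054.T3.H533.B (WD exists_WD KB ML mS lenS)
open Vale.Agent.P054.T3.H807 (pdeg)
open Vale.Agent.P054.T3.H955 (HData)
open Vale.Agent.P054.T2.H455 (Sep)

variable {n : ℕ}

/-- the vertical case of Lemma V (helper955's block V3) -/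
def VertHyp (n : ℕ) : Prop :=
  ∀ (P : Finset (E n)) (B : E n ≃ₗᵢ[ℝ] E n) (k : ℕ), Gm P B →
    ∀ (E0 E1 E2 : Finset (ZZ n × ZZ n)) (W N c₀ c₁ : ℕ)
      (H : HData n E0 E1 E2 (wh (Crd n) (Pt n) W) N c₀ c₁), E0 ⊆ Ez P B k → E2.Nonempty →
      1 ≤ W → 1 ≤ c₀ →
      c₁ < 2 * n + 2 → c₀ = 1 ∧ ∀ e ∈ E2, ∀ e' ∈ E2, H.P e' = H.P e → Qf (e'.1 - e.1) = 0

/-- the vertical case is a theorem -/
theorem vertHyp (n : ℕ) : VertHyp n := by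
  intro P B k hB E0 E1 E2 W N c₀ c₁ H hEz hne hW hc₀ hlt
  obtain ⟨e₀, he₀⟩ := hne
  have hpt : ∀ e' ∈ E1, ∃ s : E n × E n, e'.1 = zt B s ∧ KK (constF (kP P) ℝ) s := fun e he => by
    obtain ⟨s, r, h3, -, h4, -⟩ := H441.Ez_pts (hEz (H.sub he))
    exact ⟨s, h3, h4⟩
  have h1 := fun e (he : e ∈ E2) =>
    H.vert (k := kP P) (W := W) (fun _ => rfl) hc₀ hlt B hB.der hpt he
  exact ⟨(h1 e₀ he₀).1, fun e he => (h1 e he).2⟩

/-- the length of the fine window of SEAM V -/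
def lenV (n L M : ℕ) : ℕ := lenS n L (KB n (CV n)) M

/-- the loss of density of SEAM V -/
def MV (n : ℕ) : ℕ := ML n (KB n (CV n)) + 1

/-- the exponent of the loss in the bound -/
def aV (n L M : ℕ) : ℕ := mS n L (KB n (CV n)) M * KB n (CV n) * (2 * n + 2)

/-- the constant of the bound -/
def CVV (n : ℕ) : ℕ := H794.CV n * 5 ^ (n + 1)

/-- **SEAM V**, first end points, separation form. -/
theorem seamVT (n L M : ℕ) (hL : 0 < L) :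
    ∃ β₀ : ℕ, ∀ β, β₀ ≤ β → ∀ (K₁ k₀ : ℕ) (E₁ : Finset (Ed n ℝ)) (vF v1 v2 : ℕ → ℕ),
      E₁.Nonempty → (∀ e ∈ E₁, e.1.1 0 ≠ e.2.1 0 ∧ Qf (e.1 - e.2) = 0) →
      FamU (xF (n := n) (K := ℝ)) (fun _ => ()) (β ^ L) β M K₁ E₁ vF →
      FamU (xL (n := n) (K := ℝ)) Prod.fst (β ^ L) β M K₁ E₁ v1 →
      FamU (xL (n := n) (K := ℝ)) Prod.snd (β ^ L) β M K₁ E₁ v2 →
      k₀ + lenV n L M ≤ K₁ + 1 →
      (∀ l, k₀ ≤ l → l < k₀ + lenV n L M → vF l = vF k₀ ∧ v1 l = 0) → 1 ≤ vF k₀ →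
      ∃ E₂ ⊆ E₁, E₁.card ≤ β ^ MV n * E₂.card ∧ vF k₀ ≤ n + 1 ∧
        ∀ (P : Finset (E n)) (B : E n ≃ₗᵢ[ℝ] E n) (t k : ℕ) (Sg₁ : Finset (ZZ n)), 1 ≤ t →
          Sep (fun s : ZZ n => pt s) (4 * t) Sg₁ → (∀ e ∈ E₁, e.1 ∈ Sg₁) →
          Gm P B → E₁ ⊆ Ez P B k →
          (E₂.image Prod.fst).card ≤
            CVV n * (β ^ L) ^ aV n L M * (pdeg (β ^ L) k₀ vF * t ^ (n + 1 - vF k₀)) +
            CVV n * (β ^ L) ^ aV n L M * ((β ^ L) ^ kap (k₀ + 1) vF 0 * P.card) := by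
  classical
  obtain ⟨β₀, hβ₀⟩ := exists_WD n L (CV n) (qV n) M hL
  refine ⟨max 2 β₀, fun β hβ => ?_⟩
  have hβ2 : 2 ≤ β := (le_max_left _ _).trans hβ
  obtain ⟨k, C₁, h⟩ := hβ₀ β ((le_max_right _ _).trans hβ)
  intro K₁ k₀ E₁ vF v1 v2 hE₁ hadj hF h1 h2 hlen hwin hc₀
  obtain ⟨E', hE', hcard, v, i₀, i₁, ⟨A, hAF, -, -⟩, a1, a2, -⟩ :=
    h K₁ k₀ E₁ vF v1 v2 hE₁ hadj hF h1 h2 hlen
  have hlen0 : 0 < lenV n L M := by
    unfold lenV lenS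
    omega
  have hv1 : v1 k₀ = 0 := (hwin k₀ le_rfl (by omega)).2
  have b1 := a1 fun l hl hl' => (hwin l hl hl').1
  have b2 := a2 fun l hl hl' => by rw [hv1]; exact (hwin l hl hl').2
  rw [hv1] at b2
  obtain ⟨E1, E2, c₁, H, hP, hE2c⟩ := exists_HData le_rfl le_rfl A b1 b2
  have hE2E' : E2 ⊆ E' := H.sub'.trans H.sub
  have hdens : E'.card ≤ 2 * E2.card := by
    have h3 : (E' \ E2).card = E'.card - E2.card := Finset.card_sdiff_of_subset hE2E'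
    omega
  have hE2ne : E2.Nonempty := by
    rw [← Finset.card_pos]
    by_contra hcon
    have h0 : E2.card = 0 := by omega
    rw [h0, mul_zero] at hdens
    have := A.ne.card_pos
    omega
  refine ⟨E2, hE2E'.trans hE', ?_, H.c₀_le_rank hE2ne, ?_⟩
  · calc E₁.card ≤ β ^ ML n (KB n (CV n)) * E'.card := hcard
      _ ≤ β ^ ML n (KB n (CV n)) * (β * E2.card) := by
          refine Nat.mul_le_mul_left _ (hdens.trans (Nat.mul_le_mul_right _ hβ2))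
      _ = _ := by unfold MV; rw [pow_succ]; ring
  intro P B t κ Sg₁ ht1 hsep hSg₁ hB hEz
  have hb1 : 1 ≤ β ^ L := Nat.one_le_pow _ _ (by omega)
  have hD1 : 1 ≤ (β ^ (L * mS n L (KB n (CV n)) M)) ^ i₀ :=
    Nat.one_le_pow _ _ (Nat.one_le_pow _ _ (by omega))
  have hW1 : 1 ≤ (β ^ L) ^ k₀ := Nat.one_le_pow _ _ hb1
  have hSg : E2.image Prod.fst ⊆ Sg P B := by
    intro z hz
    obtain ⟨e, he, rfl⟩ := Finset.mem_image.1 hz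
    obtain ⟨s, hs, r, -, heq, -⟩ := Ez_pairs (hEz (hE' (hE2E' he)))
    exact mem_Sg.2 ⟨s, hs, by rw [heq]⟩
  have hsep' : Sep (fun s : ZZ n => pt s) (4 * t) (E2.image Prod.fst) := by
    refine hsep.subset ?_
    intro z hz
    obtain ⟨e, he, rfl⟩ := Finset.mem_image.1 hz
    exact hSg₁ e (hE' (hE2E' he))
  have key := lemmaVT H (k := kP P) (W := (β ^ L) ^ k₀)
    (D := (β ^ (L * mS n L (KB n (CV n)) M)) ^ i₀) hW1 hD1 hc₀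
    (fun j => by
      rw [Nat.mul_comm _ ((β ^ L) ^ k₀)]
      exact H.h_mem j)
    (fun j => A.bF.d j) (fun j => A.bF.d_pos j j.2)
    (fun j => (mem_restrictTotalDegree _ _ _).1 (H307.mem_van.1 (hP.f_van j)).1)
    P B hsep' hSg hB.der
    (fun e he => by
      obtain ⟨s, r, h3, -, h4, -⟩ := H441.Ez_pts (hEz (hE' (H.sub he)))
      exact ⟨s, h3, h4⟩)
  have hprod : (∏ j : Fin (vF k₀), A.bF.d j) = pdeg (β ^ L) k₀ vF := by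
    rw [hAF]
    rfl
  rw [hprod] at key
  -- the size of `D`
  have hi₀ : i₀ ≤ KB n (CV n) := by
    have h3 := A.geo
    have h4 := A.long
    have hC1 : 1 ≤ CV n := by unfold CV; omega
    have h5 : i₀ ≤ CV n * i₀ := Nat.le_mul_of_pos_left _ hC1
    have h6 : i₁ ≤ CV n * i₁ := Nat.le_mul_of_pos_left _ hC1
    omega
  have hDle : ((β ^ (L * mS n L (KB n (CV n)) M)) ^ i₀) ^ (2 * n + 2) ≤
      (β ^ L) ^ aV n L M := by
    have e1 : (β ^ (L * mS n L (KB n (CV n)) M)) ^ i₀ =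
        (β ^ L) ^ (mS n L (KB n (CV n)) M * i₀) := by
      rw [← pow_mul, ← pow_mul]
      congr 1
      ring
    rw [e1, ← pow_mul]
    refine Nat.pow_le_pow_right hb1 ?_
    unfold aV
    exact Nat.mul_le_mul_right _ (Nat.mul_le_mul_left _ hi₀)
  have h5 : (4 * t + 1) ^ (n + 1 - vF k₀) ≤ 5 ^ (n + 1) * t ^ (n + 1 - vF k₀) := by
    calc (4 * t + 1) ^ (n + 1 - vF k₀) ≤ (5 * t) ^ (n + 1 - vF k₀) :=
          Nat.pow_le_pow_left (by omega) _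
      _ = 5 ^ (n + 1 - vF k₀) * t ^ (n + 1 - vF k₀) := mul_pow _ _ _
      _ ≤ _ := Nat.mul_le_mul_right _ (Nat.pow_le_pow_right (by norm_num) (by omega))
  revert key hDle
  generalize (β ^ (L * mS n L (KB n (CV n)) M)) ^ i₀ = D
  intro key hDle
  rcases key with key | ⟨hc, key⟩
  · refine le_trans key (le_trans ?_ (Nat.le_add_right _ _))
    calc H794.CV n * D ^ (2 * n + 2) * pdeg (β ^ L) k₀ vF * (4 * t + 1) ^ (n + 1 - vF k₀)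
        ≤ H794.CV n * (β ^ L) ^ aV n L M * pdeg (β ^ L) k₀ vF *
            (5 ^ (n + 1) * t ^ (n + 1 - vF k₀)) :=
          Nat.mul_le_mul (Nat.mul_le_mul_right _ (Nat.mul_le_mul_left _ hDle)) h5
      _ = _ := by unfold CVV; ring
  · refine le_trans key (le_trans ?_ (Nat.le_add_left _ _))
    have h6 : pdeg (β ^ L) k₀ vF = (β ^ L) ^ kap (k₀ + 1) vF 0 := by
      unfold pdeg
      rw [hc]
      simp
    rw [h6]
    have h7 : H794.CV n ≤ CVV n := by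
      unfold CVV
      exact Nat.le_mul_of_pos_right _ (by positivity)
    calc H794.CV n * D ^ (2 * n + 2) * (β ^ L) ^ kap (k₀ + 1) vF 0 * P.card
        ≤ CVV n * (β ^ L) ^ aV n L M * (β ^ L) ^ kap (k₀ + 1) vF 0 * P.card :=
          Nat.mul_le_mul_right _ (Nat.mul_le_mul_right _ (Nat.mul_le_mul h7 hDle))
      _ = _ := by ring

/-- **SEAM V**, second end points, separation form. -/
theorem seamVT' (n L M : ℕ) (hL : 0 < L) :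
    ∃ β₀ : ℕ, ∀ β, β₀ ≤ β → ∀ (K₁ k₀ : ℕ) (E₁ : Finset (Ed n ℝ)) (vF v1 v2 : ℕ → ℕ),
      E₁.Nonempty → (∀ e ∈ E₁, e.1.1 0 ≠ e.2.1 0 ∧ Qf (e.1 - e.2) = 0) →
      FamU (xF (n := n) (K := ℝ)) (fun _ => ()) (β ^ L) β M K₁ E₁ vF →
      FamU (xL (n := n) (K := ℝ)) Prod.fst (β ^ L) β M K₁ E₁ v1 →
      FamU (xL (n := n) (K := ℝ)) Prod.snd (β ^ L) β M K₁ E₁ v2 →
      k₀ + lenV n L M ≤ K₁ + 1 →
      (∀ l, k₀ ≤ l → l < k₀ + lenV n L M → vF l = vF k₀ ∧ v2 l = 0) → 1 ≤ vF k₀ →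
      ∃ E₂ ⊆ E₁, E₁.card ≤ β ^ MV n * E₂.card ∧ vF k₀ ≤ n + 1 ∧
        ∀ (P : Finset (E n)) (B : E n ≃ₗᵢ[ℝ] E n) (t k : ℕ) (Sg₂ : Finset (ZZ n)), 1 ≤ t →
          Sep (fun s : ZZ n => pt s) (4 * t) Sg₂ → (∀ e ∈ E₁, e.2 ∈ Sg₂) →
          Gm P B → E₁ ⊆ Ez P B k →
          (E₂.image Prod.snd).card ≤
            CVV n * (β ^ L) ^ aV n L M * (pdeg (β ^ L) k₀ vF * t ^ (n + 1 - vF k₀)) +
            CVV n * (β ^ L) ^ aV n L M * ((β ^ L) ^ kap (k₀ + 1) vF 0 * P.card) := by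
  classical
  obtain ⟨β₀, h⟩ := seamVT n L M hL
  refine ⟨β₀, fun β hβ => ?_⟩
  intro K₁ k₀ E₁ vF v1 v2 hE₁ hadj hF h1 h2 hlen hwin hc₀
  obtain ⟨E₂, hE₂, hcard, hvn, key⟩ := h β hβ K₁ k₀ (swp E₁) vF v2 v1 (swp_nonempty hE₁)
    (adj_swp hadj) (famU_F_swp hadj hF) (famU_L2_swp h2) (famU_L1_swp h1) hlen hwin hc₀
  refine ⟨swp E₂, swp_subset' hE₂, by rwa [card_swp] at hcard ⊢, hvn, ?_⟩
  intro P B t k Sg₂ ht1 hsep hSg₂ hB hEz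
  have h3 := key P B t k Sg₂ ht1 hsep (fun e he => hSg₂ e.swap (mem_swp.1 he)) hB (fun e he => by
      have h4 := H686.Ez_swap (hEz (mem_swp.1 he))
      rwa [Prod.swap_swap] at h4)
  rwa [image_snd_swp]

/-- the vertices of `P × P` are separated -/
theorem sep_of_dists {P : Finset (E n)} {B : E n ≃ₗᵢ[ℝ] E n} {t : ℕ} (ht : (dists P).card ≤ t) :
    Sep (fun s : ZZ n => pt s) (4 * t) (Sg P B) :=
  (H84.sep_Sg P B (Sg P B) (Finset.Subset.refl _)).mono_deg (Nat.mul_le_mul_left _ ht)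

theorem fst_mem_Sg {P : Finset (E n)} {B : E n ≃ₗᵢ[ℝ] E n} {k : ℕ} {e : ZZ n × ZZ n}
    (he : e ∈ Ez P B k) : e.1 ∈ Sg P B := by
  obtain ⟨s, hs, r, -, heq, -⟩ := Ez_pairs he
  exact mem_Sg.2 ⟨s, hs, by rw [heq]⟩

theorem snd_mem_Sg {P : Finset (E n)} {B : E n ≃ₗᵢ[ℝ] E n} {k : ℕ} {e : ZZ n × ZZ n}
    (he : e ∈ Ez P B k) : e.2 ∈ Sg P B :=
  fst_mem_Sg (H686.Ez_swap he)

/-- **SEAM V**, first end points. -/
theorem seamV (hV : VertHyp n) (L M : ℕ) (hL : 0 < L) :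
    ∃ β₀ : ℕ, ∀ β, β₀ ≤ β → ∀ (K₁ k₀ : ℕ) (E₁ : Finset (Ed n ℝ)) (vF v1 v2 : ℕ → ℕ),
      E₁.Nonempty → (∀ e ∈ E₁, e.1.1 0 ≠ e.2.1 0 ∧ Qf (e.1 - e.2) = 0) →
      FamU (xF (n := n) (K := ℝ)) (fun _ => ()) (β ^ L) β M K₁ E₁ vF →
      FamU (xL (n := n) (K := ℝ)) Prod.fst (β ^ L) β M K₁ E₁ v1 →
      FamU (xL (n := n) (K := ℝ)) Prod.snd (β ^ L) β M K₁ E₁ v2 →
      k₀ + lenV n L M ≤ K₁ + 1 →
      (∀ l, k₀ ≤ l → l < k₀ + lenV n L M → vF l = vF k₀ ∧ v1 l = 0) → 1 ≤ vF k₀ →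
      ∃ E₂ ⊆ E₁, E₁.card ≤ β ^ MV n * E₂.card ∧ vF k₀ ≤ n + 1 ∧
        ∀ (P : Finset (E n)) (B : E n ≃ₗᵢ[ℝ] E n) (t k : ℕ), 1 ≤ t → (dists P).card ≤ t →
          Gm P B → E₁ ⊆ Ez P B k →
          (E₂.image Prod.fst).card ≤
            CVV n * (β ^ L) ^ aV n L M * (pdeg (β ^ L) k₀ vF * t ^ (n + 1 - vF k₀)) +
            CVV n * (β ^ L) ^ aV n L M * ((β ^ L) ^ kap (k₀ + 1) vF 0 * P.card) := by
  obtain ⟨β₀, h⟩ := seamVT n L M hL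
  refine ⟨β₀, fun β hβ => ?_⟩
  intro K₁ k₀ E₁ vF v1 v2 hE₁ hadj hF h1 h2 hlen hwin hc₀
  obtain ⟨E₂, hE₂, hcard, hvn, key⟩ := h β hβ K₁ k₀ E₁ vF v1 v2 hE₁ hadj hF h1 h2 hlen hwin hc₀
  exact ⟨E₂, hE₂, hcard, hvn, fun P B t k ht1 ht hB hEz => key P B t k (Sg P B) ht1
    (sep_of_dists ht) (fun e he => fst_mem_Sg (hEz he)) hB hEz⟩

/-- **SEAM V**, second end points. -/
theorem seamV' (hV : VertHyp n) (L M : ℕ) (hL : 0 < L) :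
    ∃ β₀ : ℕ, ∀ β, β₀ ≤ β → ∀ (K₁ k₀ : ℕ) (E₁ : Finset (Ed n ℝ)) (vF v1 v2 : ℕ → ℕ),
      E₁.Nonempty → (∀ e ∈ E₁, e.1.1 0 ≠ e.2.1 0 ∧ Qf (e.1 - e.2) = 0) →
      FamU (xF (n := n) (K := ℝ)) (fun _ => ()) (β ^ L) β M K₁ E₁ vF →
      FamU (xL (n := n) (K := ℝ)) Prod.fst (β ^ L) β M K₁ E₁ v1 →
      FamU (xL (n := n) (K := ℝ)) Prod.snd (β ^ L) β M K₁ E₁ v2 →
      k₀ + lenV n L M ≤ K₁ + 1 →
      (∀ l, k₀ ≤ l → l < k₀ + lenV n L M → vF l = vF k₀ ∧ v2 l = 0) → 1 ≤ vF k₀ →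
      ∃ E₂ ⊆ E₁, E₁.card ≤ β ^ MV n * E₂.card ∧ vF k₀ ≤ n + 1 ∧
        ∀ (P : Finset (E n)) (B : E n ≃ₗᵢ[ℝ] E n) (t k : ℕ), 1 ≤ t → (dists P).card ≤ t →
          Gm P B → E₁ ⊆ Ez P B k →
          (E₂.image Prod.snd).card ≤
            CVV n * (β ^ L) ^ aV n L M * (pdeg (β ^ L) k₀ vF * t ^ (n + 1 - vF k₀)) +
            CVV n * (β ^ L) ^ aV n L M * ((β ^ L) ^ kap (k₀ + 1) vF 0 * P.card) := by
  obtain ⟨β₀, h⟩ := seamVT' n L M hL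
  refine ⟨β₀, fun β hβ => ?_⟩
  intro K₁ k₀ E₁ vF v1 v2 hE₁ hadj hF h1 h2 hlen hwin hc₀
  obtain ⟨E₂, hE₂, hcard, hvn, key⟩ := h β hβ K₁ k₀ E₁ vF v1 v2 hE₁ hadj hF h1 h2 hlen hwin hc₀
  exact ⟨E₂, hE₂, hcard, hvn, fun P B t k ht1 ht hB hEz => key P B t k (Sg P B) ht1
    (sep_of_dists ht) (fun e he => snd_mem_Sg (hEz he)) hB hEz⟩

end Vale.Agent.P054.T3.H517
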